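import Vale.Agent.P098.H510.Conv

/-! # An abstract calibration lemma, quadratic in the perturbation -/

open MeasureTheory Set Metric Filter
open scoped ContDiff RealInnerProductSpace Topology NNReal

namespace Vale.Agent.P098C

open Vale.Agent.P098

lemma ae_tendsto_zero {α : Type} [MeasurableSpace α] {μ : Measure α} {F : ℕ → α → ℝ}
    (hF : ∀ n, Integrable (F n) μ) (h0 : ∀ n x, 0 ≤ F n x)
    (hs : Summable fun n => ∫ x, F n x ∂μ) :
    ∀ᵐ x ∂μ, Tendsto (fun n => F n x) atTop (𝓝 0) := by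
  have h := summable_norm_of_tsum_eLpNorm_ne_top (p := 1) le_rfl (fun n => (hF n).1) ?_
  · filter_upwards [h] with x hx
    exact hx.of_norm.tendsto_atTop_zero
  · have e : ∀ n, eLpNorm (F n) 1 μ = ENNReal.ofReal (∫ x, F n x ∂μ) := by
      intro n
      rw [eLpNorm_one_eq_lintegral_enorm, ← ofReal_integral_norm_eq_lintegral_enorm (hF n)]
      congr 2
      funext x
      exact Real.norm_of_nonneg (h0 n x)
    simp only [e]
    exact hs.tsum_ofReal_ne_top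

variable {d : ℕ}

lemma quad_nonneg {Z h : E d} {D w : ℝ} (hn : ‖Z‖ ^ 2 + D ≤ 0) :
    0 ≤ ‖h‖ ^ 2 - (2 * w * ⟪Z, h⟫ + D * w ^ 2) := by
  have h1 : ‖h - w • Z‖ ^ 2 = ‖h‖ ^ 2 - 2 * (w * ⟪Z, h⟫) + w ^ 2 * ‖Z‖ ^ 2 := by
    rw [norm_sub_sq_real, inner_smul_right, norm_smul, real_inner_comm]
    simp [mul_pow]
  nlinarith [sq_nonneg ‖h - w • Z‖, mul_nonneg (sq_nonneg w) (neg_nonneg.2 hn)]

lemma lin_le {a h k : E d} {f w φ θ : ℝ} (hθ : 0 < θ) :
    2 * (⟪a, k⟫ + f * φ) + ‖k‖ ^ 2 ≤ 2 * (⟪a, h⟫ + f * w) + ‖h‖ ^ 2 +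
      θ * (‖a‖ ^ 2 + f ^ 2 + ‖h‖ ^ 2) + (2 / θ + 1) * ((w - φ) ^ 2 + ‖h - k‖ ^ 2) := by
  obtain ⟨e, rfl⟩ : ∃ e, k = h - e := ⟨h - k, by abel⟩
  have am : ∀ x y : ℝ, 2 * (x * y) ≤ θ * x ^ 2 + 1 / θ * y ^ 2 := by
    intro x y
    have h1 : θ * x ^ 2 + 1 / θ * y ^ 2 - 2 * (x * y) = (θ * x - y) ^ 2 / θ := by
      field_simp
      ring
    have h2 : 0 ≤ (θ * x - y) ^ 2 / θ := by positivity
    linarith
  have h1 := am ‖a‖ ‖e‖
  have h2 := am ‖h‖ ‖e‖
  have h3 := am f (φ - w)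
  have h4 := abs_le.1 (abs_real_inner_le_norm a e)
  have h5 := abs_le.1 (abs_real_inner_le_norm h e)
  have h6 : 0 ≤ 1 / θ * (w - φ) ^ 2 := by positivity
  have h7 : (φ - w) ^ 2 = (w - φ) ^ 2 := by ring
  have h8 : (2 / θ + 1) * ((w - φ) ^ 2 + ‖e‖ ^ 2) =
      2 * (1 / θ * (w - φ) ^ 2) + 2 * (1 / θ * ‖e‖ ^ 2) + (w - φ) ^ 2 + ‖e‖ ^ 2 := by ring
  rw [sub_sub_cancel, inner_sub_right, norm_sub_sq_real, h8]
  rw [h7] at h3
  nlinarith [sq_nonneg (w - φ), h4.1, h5.1]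

/-- The calibration lemma. -/
lemma calib {x₀ : E d} {r : ℝ} {a Z : E d → E d} {f dZ : E d → ℝ}
    (ha : MemLp a 2 (volume.restrict (ball x₀ r))) (hf : MemLp f 2 (volume.restrict (ball x₀ r)))
    (hneg : ∀ᵐ x ∂(volume.restrict (ball x₀ r)), ‖Z x‖ ^ 2 + dZ x ≤ 0)
    (h1 : ∀ φ : E d → ℝ, ContDiff ℝ ∞ φ → HasCompactSupport φ → tsupport φ ⊆ ball x₀ r →
      ∫ x in ball x₀ r, (⟪a x, gradient φ x⟫ + f x * φ x) = 0)
    (h2 : ∀ φ : E d → ℝ, ContDiff ℝ ∞ φ → HasCompactSupport φ → tsupport φ ⊆ ball x₀ r →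
      Integrable (fun x => 2 * φ x * ⟪Z x, gradient φ x⟫ + dZ x * φ x ^ 2)
        (volume.restrict (ball x₀ r)) ∧
      ∫ x in ball x₀ r, (2 * φ x * ⟪Z x, gradient φ x⟫ + dZ x * φ x ^ 2) = 0)
    {w : E d → ℝ} {h : E d → E d} (hw : MemH10 (ball x₀ r) w h) {D : E d → ℝ}
    (hD : Integrable D (volume.restrict (ball x₀ r)))
    (hle : ∀ᵐ x ∂(volume.restrict (ball x₀ r)),
      2 * (⟪a x, h x⟫ + f x * w x) + (2 * w x * ⟪Z x, h x⟫ + dZ x * w x ^ 2) ≤ D x) :
    0 ≤ ∫ x in ball x₀ r, D x := by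
  have hfin := H510.ball_fin x₀ r
  set μ : Measure (E d) := volume.restrict (ball x₀ r) with hμ
  obtain ⟨hH, happ⟩ := hw
  have happ' : ∀ n : ℕ, ∃ φ : E d → ℝ, ContDiff ℝ ∞ φ ∧ HasCompactSupport φ ∧
      tsupport φ ⊆ ball x₀ r ∧
      (∫ x, (w x - φ x) ^ 2 ∂μ) + (∫ x, ‖h x - gradient φ x‖ ^ 2 ∂μ) < ((1 / 2 : ℝ) ^ n) ^ 2 :=
    fun n => happ _ (by positivity)
  choose φ hφ hφc hφs hφe using happ'
  have hφ2 : ∀ n, MemLp (φ n) 2 μ := fun n =>
    ModA.memLp_of_continuous (hφ n).continuous x₀ r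
  have hφg : ∀ n, MemLp (gradient (φ n)) 2 μ := by
    intro n
    obtain ⟨K, hK⟩ := (hφ n).lipschitzWith_of_hasCompactSupport (hφc n) (by simp)
    exact ModA.memLp_gradient hK x₀ r
  -- integrability of the linear-quadratic expression
  have iS : ∀ {v : E d → ℝ} {g : E d → E d}, MemLp v 2 μ → MemLp g 2 μ →
      Integrable (fun x => ⟪a x, g x⟫ + f x * v x) μ := by
    intro v g hv hg
    refine Integrable.add ?_ (hf.integrable_mul hv)
    refine (ha.norm.integrable_mul hg.norm).mono' (ha.1.inner hg.1) ?_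
    exact Eventually.of_forall fun x => abs_real_inner_le_norm _ _
  have iq : ∀ {g : E d → E d}, MemLp g 2 μ → Integrable (fun x => ‖g x‖ ^ 2) μ :=
    fun hg => hg.norm.integrable_sq
  let S : E d → ℝ := fun x => 2 * (⟪a x, h x⟫ + f x * w x) + ‖h x‖ ^ 2
  have iS0 : Integrable S μ := ((iS hH.1 hH.2.1).const_mul 2).add (iq hH.2.1)
  let N : ℕ → E d → ℝ := fun n x => ‖gradient (φ n) x‖ ^ 2 -
    (2 * φ n x * ⟪Z x, gradient (φ n) x⟫ + dZ x * φ n x ^ 2)
  have iN : ∀ n, Integrable (N n) μ := fun n =>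
    (iq (hφg n)).sub (h2 _ (hφ n) (hφc n) (hφs n)).1
  let Er : ℕ → E d → ℝ := fun n x => (w x - φ n x) ^ 2 + ‖h x - gradient (φ n) x‖ ^ 2
  have iE1 : ∀ n, Integrable (fun x => (w x - φ n x) ^ 2) μ := fun n =>
    (hH.1.sub (hφ2 n)).integrable_sq
  have iE2 : ∀ n, Integrable (fun x => ‖h x - gradient (φ n) x‖ ^ 2) μ := fun n =>
    iq (hH.2.1.sub (hφg n))
  have iE : ∀ n, Integrable (Er n) μ := fun n => (iE1 n).add (iE2 n)
  have bE : ∀ n, ∫ x, Er n x ∂μ ≤ ((1 / 2 : ℝ) ^ n) ^ 2 := by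
    intro n
    have := hφe n
    rw [← integral_add (iE1 n) (iE2 n)] at this
    exact this.le
  let K : E d → ℝ := fun x => ‖a x‖ ^ 2 + f x ^ 2 + ‖h x‖ ^ 2
  have iK : Integrable K μ := ((iq ha).add hf.integrable_sq).add (iq hH.2.1)
  have bN : ∀ n, ∫ x, N n x ∂μ ≤ ∫ x, S x ∂μ + (1 / 2 : ℝ) ^ n * (∫ x, K x ∂μ + 3) := by
    intro n
    set θ : ℝ := (1 / 2 : ℝ) ^ n with hθ
    have hθ0 : 0 < θ := by positivity
    have hθ1 : θ ≤ 1 := pow_le_one₀ (by norm_num) (by norm_num)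
    have e1 : ∫ x, N n x ∂μ = ∫ x, (2 * (⟪a x, gradient (φ n) x⟫ + f x * φ n x) +
        ‖gradient (φ n) x‖ ^ 2) ∂μ := by
      rw [integral_add ((iS (hφ2 n) (hφg n)).const_mul 2) (iq (hφg n)), integral_const_mul,
        h1 _ (hφ n) (hφc n) (hφs n),
        integral_sub (iq (hφg n)) (h2 _ (hφ n) (hφc n) (hφs n)).1,
        (h2 _ (hφ n) (hφc n) (hφs n)).2]
      ring
    have e2 : ∫ x, (2 * (⟪a x, gradient (φ n) x⟫ + f x * φ n x) + ‖gradient (φ n) x‖ ^ 2) ∂μ ≤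
        ∫ x, (S x + θ * K x + (2 / θ + 1) * Er n x) ∂μ :=
      integral_mono (((iS (hφ2 n) (hφg n)).const_mul 2).add (iq (hφg n)))
        ((iS0.add (iK.const_mul θ)).add ((iE n).const_mul _)) fun x => lin_le hθ0
    have iSK : Integrable (fun x => S x + θ * K x) μ := iS0.add (iK.const_mul θ)
    rw [integral_add iSK ((iE n).const_mul _),
      integral_add iS0 (iK.const_mul θ), integral_const_mul, integral_const_mul] at e2
    have e3 : (2 / θ + 1) * ∫ x, Er n x ∂μ ≤ (2 / θ + 1) * θ ^ 2 :=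
      mul_le_mul_of_nonneg_left (bE n) (by positivity)
    have e4 : (2 / θ + 1) * θ ^ 2 = 2 * θ + θ * θ := by field_simp
    have e5 : θ * θ ≤ θ := mul_le_of_le_one_right hθ0.le hθ1
    rw [e1]
    nlinarith
  -- almost everywhere convergence
  have hsum : Summable fun n => ∫ x, Er n x ∂μ := by
    refine Summable.of_nonneg_of_le (fun n => integral_nonneg fun x => by positivity)
      (fun n => (bE n).trans ?_) summable_geometric_two
    exact pow_le_of_le_one (by positivity) (pow_le_one₀ (by norm_num) (by norm_num)) (by norm_num)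
  have hae := ae_tendsto_zero iE (fun n x => by positivity) hsum
  let T : E d → ℝ := fun x => max (S x - D x) 0
  have iT : Integrable T μ := (iS0.sub hD).pos_part
  have hlim : Tendsto (fun n => ∫ x, min (T x) (N n x) ∂μ) atTop (𝓝 (∫ x, T x ∂μ)) := by
    refine tendsto_integral_of_dominated_convergence T
      (fun n => (iT.1.aemeasurable.min (iN n).1.aemeasurable).aestronglyMeasurable) iT ?_ ?_
    · intro n
      filter_upwards [hneg] with x hx
      have b1 : 0 ≤ N n x := quad_nonneg hx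
      have b2 : 0 ≤ T x := le_max_right _ _
      rw [Real.norm_of_nonneg (le_min b2 b1)]
      exact min_le_left _ _
    · filter_upwards [hneg, hle, hae] with x hx hx2 hx3
      have c1 : Tendsto (fun n => φ n x) atTop (𝓝 (w x)) := by
        rw [tendsto_iff_norm_sub_tendsto_zero]
        have c : Tendsto (fun n => √(Er n x)) atTop (𝓝 0) := by
          simpa using hx3.sqrt
        refine squeeze_zero (fun n => norm_nonneg _) (fun n => ?_) c
        refine Real.le_sqrt_of_sq_le ?_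
        rw [Real.norm_eq_abs, sq_abs]
        simp only [Er]
        nlinarith [sq_nonneg ‖h x - gradient (φ n) x‖]
      have c2 : Tendsto (fun n => gradient (φ n) x) atTop (𝓝 (h x)) := by
        rw [tendsto_iff_norm_sub_tendsto_zero]
        have c : Tendsto (fun n => √(Er n x)) atTop (𝓝 0) := by
          simpa using hx3.sqrt
        refine squeeze_zero (fun n => norm_nonneg _) (fun n => ?_) c
        refine Real.le_sqrt_of_sq_le ?_
        rw [norm_sub_rev]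
        simp only [Er]
        nlinarith [sq_nonneg (w x - φ n x)]
      have c3 : Tendsto (fun n => N n x) atTop
          (𝓝 (‖h x‖ ^ 2 - (2 * w x * ⟪Z x, h x⟫ + dZ x * w x ^ 2))) :=
        (c2.norm.pow 2).sub (((c1.const_mul 2).mul (tendsto_const_nhds.inner c2)).add
          ((c1.pow 2).const_mul _))
      have c4 := (tendsto_const_nhds (x := T x)).min c3
      have c5 : T x ≤ ‖h x‖ ^ 2 - (2 * w x * ⟪Z x, h x⟫ + dZ x * w x ^ 2) := by
        refine max_le ?_ (quad_nonneg hx)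
        simp only [S]
        linarith
      rwa [min_eq_left c5] at c4
  have hlim2 : Tendsto (fun n : ℕ => ∫ x, S x ∂μ + (1 / 2 : ℝ) ^ n * (∫ x, K x ∂μ + 3)) atTop
      (𝓝 (∫ x, S x ∂μ)) := by
    have c := ((tendsto_pow_atTop_nhds_zero_of_lt_one (r := (1 / 2 : ℝ)) (by norm_num)
      (by norm_num)).mul_const (∫ x, K x ∂μ + 3)).const_add (∫ x, S x ∂μ)
    simpa using c
  have hT : ∫ x, T x ∂μ ≤ ∫ x, S x ∂μ := by
    refine le_of_tendsto_of_tendsto' hlim hlim2 fun n => le_trans ?_ (bN n)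
    exact integral_mono (iT.inf (iN n)) (iN n) fun x => min_le_right _ _
  have hT2 : ∫ x, (S x - D x) ∂μ ≤ ∫ x, T x ∂μ :=
    integral_mono (iS0.sub hD) iT fun x => le_max_left _ _
  rw [integral_sub iS0 hD] at hT2
  linarith

end Vale.Agent.P098C
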