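import Vale.Agent.P098C.IBP

/-! # Homogeneous coefficients glued along the cone and their derivatives -/

open MeasureTheory Set Metric Filter
open scoped ContDiff RealInnerProductSpace Topology NNReal

namespace Vale.Agent.P098C

/-- The ratio `η / m`. -/
noncomputable def tau (x : V) : ℝ := eta x / mm x
/-- The ratio `2 ρ / m`. -/
noncomputable def bb (x : V) : ℝ := 2 * rho x / mm x

/-- A coefficient, homogeneous of degree `-k`. -/
noncomputable def cf (k : ℕ) (p q : ℝ → ℝ) (x : V) : ℝ := (p (tau x) + q (bb x)) / mm x ^ k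

/-- The derivative of the coefficient along the first block. -/
noncomputable def dP (k : ℕ) (p q : ℝ → ℝ) (x : V) : ℝ :=
  if eta x < 2 * rho x then (-(tau x * deriv p (tau x)) - k * (p (tau x) + q 1)) / mm x ^ k
  else bb x * deriv q (bb x) / mm x ^ k

/-- The derivative of the coefficient along the second block. -/
noncomputable def dQ (k : ℕ) (p q : ℝ → ℝ) (x : V) : ℝ :=
  if eta x < 2 * rho x then tau x * deriv p (tau x) / mm x ^ k
  else (-(bb x * deriv q (bb x)) - k * (q (bb x) + p 1)) / mm x ^ k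

lemma eta_le_mm (x : V) : eta x ≤ mm x := le_max_right _ _
lemma rho_le_mm (x : V) : 2 * rho x ≤ mm x := le_max_left _ _

lemma tau_mem (x : V) : tau x ∈ Icc (0 : ℝ) 1 :=
  ⟨div_nonneg (eta_nonneg x) (mm_nonneg x), div_le_one_of_le₀ (eta_le_mm x) (mm_nonneg x)⟩

lemma bb_mem (x : V) : bb x ∈ Icc (0 : ℝ) 1 :=
  ⟨div_nonneg (by have := rho_nonneg x; positivity) (mm_nonneg x),
    div_le_one_of_le₀ (rho_le_mm x) (mm_nonneg x)⟩

lemma measurable_rho : Measurable rho := lip_rho.continuous.measurable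
lemma measurable_eta : Measurable eta := lip_eta.continuous.measurable
lemma measurable_tau : Measurable tau := measurable_eta.div measurable_mm
lemma measurable_bb : Measurable bb := (measurable_rho.const_mul 2).div measurable_mm
lemma measurableSet_G : MeasurableSet {x : V | eta x < 2 * rho x} :=
  measurableSet_lt measurable_eta (measurable_rho.const_mul 2)

lemma measurable_cf (k : ℕ) {p q : ℝ → ℝ} (hp : ContDiff ℝ 1 p) (hq : ContDiff ℝ 1 q) :
    Measurable (cf k p q) :=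
  ((hp.continuous.measurable.comp measurable_tau).add
    (hq.continuous.measurable.comp measurable_bb)).div (measurable_mm.pow_const k)

lemma measurable_dP (k : ℕ) {p : ℝ → ℝ} (q : ℝ → ℝ) (hp : ContDiff ℝ 1 p) :
    Measurable (dP k p q) := by
  refine Measurable.ite measurableSet_G ?_ ?_
  · exact (((measurable_tau.mul ((measurable_deriv p).comp measurable_tau)).neg).sub
      (((hp.continuous.measurable.comp measurable_tau).add_const _).const_mul _)).div
      (measurable_mm.pow_const k)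
  · exact (measurable_bb.mul ((measurable_deriv q).comp measurable_bb)).div
      (measurable_mm.pow_const k)

lemma measurable_dQ (k : ℕ) (p : ℝ → ℝ) {q : ℝ → ℝ} (hq : ContDiff ℝ 1 q) :
    Measurable (dQ k p q) := by
  refine Measurable.ite measurableSet_G ?_ ?_
  · exact (measurable_tau.mul ((measurable_deriv p).comp measurable_tau)).div
      (measurable_mm.pow_const k)
  · exact (((measurable_bb.mul ((measurable_deriv q).comp measurable_bb)).neg).sub
      (((hq.continuous.measurable.comp measurable_bb).add_const _).const_mul _)).div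
      (measurable_mm.pow_const k)

lemma bdd01 {p : ℝ → ℝ} (hp : Continuous p) : ∃ C, 0 ≤ C ∧ ∀ t ∈ Icc (0 : ℝ) 1, |p t| ≤ C := by
  obtain ⟨C, hC⟩ := isCompact_Icc.exists_bound_of_continuousOn
    (hp.continuousOn (s := Icc (0 : ℝ) 1))
  exact ⟨C, (norm_nonneg _).trans (hC 0 (by simp)), hC⟩

lemma cf_bound (k : ℕ) {p q : ℝ → ℝ} (hp : ContDiff ℝ 1 p) (hq : ContDiff ℝ 1 q) :
    ∃ C, 0 ≤ C ∧ ∀ x, |cf k p q x| ≤ C / mm x ^ k := by
  obtain ⟨C, hC0, hC⟩ := bdd01 hp.continuous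
  obtain ⟨D, hD0, hD⟩ := bdd01 hq.continuous
  refine ⟨C + D, by positivity, fun x => ?_⟩
  have := mm_nonneg x
  unfold cf
  rw [abs_div, abs_of_nonneg (show 0 ≤ mm x ^ k by positivity)]
  gcongr
  exact (abs_add_le _ _).trans (add_le_add (hC _ (tau_mem x)) (hD _ (bb_mem x)))

lemma d_bound {p : ℝ → ℝ} (hp : ContDiff ℝ 1 p) (k : ℕ) (c : ℝ) :
    ∃ C, 0 ≤ C ∧ ∀ t ∈ Icc (0 : ℝ) 1, |t * deriv p t| ≤ C ∧
      |-(t * deriv p t) - k * (p t + c)| ≤ C := by
  have h1 : Continuous (deriv p) := hp.continuous_deriv le_rfl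
  have h2 := hp.continuous
  obtain ⟨C, hC0, hC⟩ := bdd01 (p := fun t => t * deriv p t) (by fun_prop)
  obtain ⟨D, hD0, hD⟩ := bdd01 (p := fun t => -(t * deriv p t) - k * (p t + c)) (by fun_prop)
  exact ⟨C + D, by positivity, fun t ht => ⟨by have := hC t ht; linarith,
    by have := hD t ht; linarith⟩⟩

lemma dP_bound (k : ℕ) {p q : ℝ → ℝ} (hp : ContDiff ℝ 1 p) (hq : ContDiff ℝ 1 q) :
    ∃ C, 0 ≤ C ∧ ∀ x, |dP k p q x| ≤ C / mm x ^ k := by
  obtain ⟨C, hC0, hC⟩ := d_bound hp k (q 1)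
  obtain ⟨D, hD0, hD⟩ := d_bound hq k (p 1)
  refine ⟨C + D, by positivity, fun x => ?_⟩
  have := mm_nonneg x
  unfold dP
  split_ifs
  · rw [abs_div, abs_of_nonneg (show 0 ≤ mm x ^ k by positivity)]
    gcongr
    have := (hC _ (tau_mem x)).2
    linarith
  · rw [abs_div, abs_of_nonneg (show 0 ≤ mm x ^ k by positivity)]
    gcongr
    have := (hD _ (bb_mem x)).1
    linarith

lemma dQ_bound (k : ℕ) {p q : ℝ → ℝ} (hp : ContDiff ℝ 1 p) (hq : ContDiff ℝ 1 q) :
    ∃ C, 0 ≤ C ∧ ∀ x, |dQ k p q x| ≤ C / mm x ^ k := by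
  obtain ⟨C, hC0, hC⟩ := d_bound hp k (q 1)
  obtain ⟨D, hD0, hD⟩ := d_bound hq k (p 1)
  refine ⟨C + D, by positivity, fun x => ?_⟩
  have := mm_nonneg x
  unfold dQ
  split_ifs
  · rw [abs_div, abs_of_nonneg (show 0 ≤ mm x ^ k by positivity)]
    gcongr
    have := (hC _ (tau_mem x)).1
    linarith
  · rw [abs_div, abs_of_nonneg (show 0 ≤ mm x ^ k by positivity)]
    gcongr
    have := (hD _ (bb_mem x)).2
    linarith

/-- The coefficient is Lipschitz on annuli, with the natural scaling of the constant. -/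
lemma cf_lip (k : ℕ) {p q : ℝ → ℝ} (hp : ContDiff ℝ 1 p) (hq : ContDiff ℝ 1 q) :
    ∃ L, 0 ≤ L ∧ ∀ m : ℝ, 0 < m → ∀ y y' : V, mm y ∈ Icc (m / 2) (2 * m) →
      mm y' ∈ Icc (m / 2) (2 * m) → |cf k p q y - cf k p q y'| ≤ L / m ^ k * (‖y - y'‖ / m) := by
  let Φ : ℝ × ℝ × ℝ → ℝ := fun z => (p (z.2.2 / z.1) + q (z.2.1 / z.1)) / z.1 ^ k
  let S : Set (ℝ × ℝ × ℝ) := Icc (1 / 2) 2 ×ˢ Icc 0 2 ×ˢ Icc 0 2
  have hS : ∀ z ∈ S, z.1 ≠ 0 := fun z hz => by
    have := hz.1.1
    linarith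
  have hΦ : ContDiffOn ℝ 1 Φ S := by
    refine ContDiffOn.div (ContDiffOn.add (hp.comp_contDiffOn ?_) (hq.comp_contDiffOn ?_))
      (by fun_prop) (fun z hz => pow_ne_zero _ (hS z hz))
    · exact ContDiffOn.div (by fun_prop) (by fun_prop) hS
    · exact ContDiffOn.div (by fun_prop) (by fun_prop) hS
  obtain ⟨L, hL⟩ := hΦ.exists_lipschitzOnWith (by norm_num)
    ((convex_Icc _ _).prod ((convex_Icc _ _).prod (convex_Icc _ _)))
    (isCompact_Icc.prod (isCompact_Icc.prod isCompact_Icc))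
  refine ⟨2 * L, by positivity, fun m hm y y' hy hy' => ?_⟩
  have e : ∀ z : V, mm z ∈ Icc (m / 2) (2 * m) →
      cf k p q z = Φ (mm z / m, 2 * rho z / m, eta z / m) / m ^ k ∧
        (mm z / m, 2 * rho z / m, eta z / m) ∈ S := by
    intro z hz
    have h1 : 0 < mm z := by have := hz.1; linarith
    have h2 := rho_le_mm z
    have h3 := eta_le_mm z
    have h4 := rho_nonneg z
    have h5 := eta_nonneg z
    have h6 := hz.1
    have h7 := hz.2
    refine ⟨?_, ⟨?_, ?_⟩, ⟨?_, ?_⟩, ?_, ?_⟩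
    · simp only [Φ, cf, tau, bb]
      rw [div_div_div_cancel_right₀ hm.ne', div_div_div_cancel_right₀ hm.ne', div_pow]
      field_simp
    · rw [le_div_iff₀ hm]; linarith
    · rw [div_le_iff₀ hm]; linarith
    · positivity
    · rw [div_le_iff₀ hm]; linarith
    · positivity
    · rw [div_le_iff₀ hm]; linarith
  obtain ⟨e1, m1⟩ := e y hy
  obtain ⟨e2, m2⟩ := e y' hy'
  have h := hL.dist_le_mul _ m1 _ m2
  have hd : dist (mm y / m, 2 * rho y / m, eta y / m) (mm y' / m, 2 * rho y' / m, eta y' / m) ≤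
      2 * (‖y - y'‖ / m) := by
    have a1 := lip_mm.dist_le_mul y y'
    have a2 := lip_two_rho.dist_le_mul y y'
    have a3 := lip_eta.dist_le_mul y y'
    rw [Real.dist_eq, dist_eq_norm] at a1 a2 a3
    simp only [NNReal.coe_ofNat, NNReal.coe_one, one_mul] at a1 a2 a3
    have n0 := norm_nonneg (y - y')
    simp only [Prod.dist_eq, Real.dist_eq, max_le_iff, ← sub_div, abs_div, abs_of_pos hm,
      ← mul_div_assoc]
    refine ⟨?_, ?_, ?_⟩ <;> gcongr
    linarith
  rw [e1, e2, ← sub_div, abs_div, abs_of_pos (show 0 < m ^ k by positivity), ← Real.dist_eq]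
  calc dist _ _ / m ^ k ≤ L * (2 * (‖y - y'‖ / m)) / m ^ k := by
        gcongr
        exact h.trans (by gcongr)
    _ = _ := by ring

lemma mm_lineP (x : V) {t : ℝ} (ht : |t| < 1 / 2) :
    mm (x + t • pr sP x) ∈ Icc (mm x / 2) (2 * mm x) := by
  obtain ⟨h1, h2⟩ := abs_lt.1 ht
  have h3 := rho_nonneg x
  have h4 := eta_nonneg x
  have h5 := rho_le_mm x
  have h6 := eta_le_mm x
  have e : mm (x + t • pr sP x) = max (2 * ((1 + t) * rho x)) (eta x) := by
    rw [mm, rho_lineP, eta_lineP, abs_of_pos (by linarith)]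
  rw [e]
  constructor
  · rw [div_le_iff₀ (by norm_num : (0 : ℝ) < 2)]
    refine max_le ?_ ?_
    · have := le_max_left (2 * ((1 + t) * rho x)) (eta x)
      nlinarith
    · have := le_max_right (2 * ((1 + t) * rho x)) (eta x)
      nlinarith
  · refine max_le (by nlinarith) (by linarith)

lemma mm_lineQ (x : V) {t : ℝ} (ht : |t| < 1 / 2) :
    mm (x + t • pr sQ x) ∈ Icc (mm x / 2) (2 * mm x) := by
  obtain ⟨h1, h2⟩ := abs_lt.1 ht
  have h3 := rho_nonneg x
  have h4 := eta_nonneg x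
  have h5 := rho_le_mm x
  have h6 := eta_le_mm x
  have e : mm (x + t • pr sQ x) = max (2 * rho x) ((1 + t) * eta x) := by
    rw [mm, rho_lineQ, eta_lineQ, abs_of_pos (by linarith)]
  rw [e]
  constructor
  · rw [div_le_iff₀ (by norm_num : (0 : ℝ) < 2)]
    refine max_le ?_ ?_
    · have := le_max_left (2 * rho x) ((1 + t) * eta x)
      nlinarith
    · have := le_max_right (2 * rho x) ((1 + t) * eta x)
      nlinarith
  · refine max_le (by linarith) (by nlinarith)

lemma der1 {p : ℝ → ℝ} (hp : ContDiff ℝ 1 p) (k : ℕ) (τ c M : ℝ) :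
    HasDerivAt (fun t : ℝ => (p (τ / (1 + t)) + c) / ((1 + t) ^ k * M))
      ((-(τ * deriv p τ) - k * (p τ + c)) / M) 0 := by
  have h0 : HasDerivAt (fun t : ℝ => 1 + t) 1 0 := (hasDerivAt_id' (0 : ℝ)).const_add 1
  have h1 : HasDerivAt (fun t : ℝ => τ / (1 + t)) (-τ) 0 :=
    ((hasDerivAt_const (0 : ℝ) τ).fun_div h0 (by simp)).congr_deriv (by simp)
  have h2 : HasDerivAt p (deriv p τ) (τ / (1 + 0)) := by
    simpa using ((hp.differentiable (by simp)) τ).hasDerivAt
  have h3 := (h2.comp (0 : ℝ) h1).add_const c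
  have h4 : HasDerivAt (fun t : ℝ => (1 + t) ^ k) (k : ℝ) 0 :=
    (h0.fun_pow k).congr_deriv (by simp)
  have h5 := (h3.fun_div h4 (by simp)).div_const M
  have e : (fun t : ℝ => (p (τ / (1 + t)) + c) / ((1 + t) ^ k * M)) =
      fun t : ℝ => ((p ∘ fun t : ℝ => τ / (1 + t)) t + c) / (1 + t) ^ k / M := by
    funext t
    simp [div_div]
  rw [e]
  refine h5.congr_deriv ?_
  simp only [Function.comp, add_zero, div_one, one_pow]
  ring

lemma der2 {p : ℝ → ℝ} (hp : ContDiff ℝ 1 p) (τ c M : ℝ) :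
    HasDerivAt (fun t : ℝ => (p ((1 + t) * τ) + c) / M) (τ * deriv p τ / M) 0 := by
  have h1 : HasDerivAt (fun t : ℝ => (1 + t) * τ) τ 0 :=
    (((hasDerivAt_id' (0 : ℝ)).const_add 1).mul_const τ).congr_deriv (by simp)
  have h2 : HasDerivAt p (deriv p τ) ((1 + 0) * τ) := by
    simpa using ((hp.differentiable (by simp)) τ).hasDerivAt
  have h3 := ((h2.comp (0 : ℝ) h1).add_const c).div_const M
  exact h3.congr_deriv (by ring)

lemma ev_lt {a b : ℝ} (h : a < b) :
    (∀ᶠ t : ℝ in 𝓝 0, a < (1 + t) * b) ∧ (∀ᶠ t : ℝ in 𝓝 0, (1 + t) * a < b) ∧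
      ∀ᶠ t : ℝ in 𝓝 0, 0 < 1 + t := by
  refine ⟨?_, ?_, ?_⟩
  · exact ContinuousAt.eventually_lt (f := fun _ => a) (g := fun t : ℝ => (1 + t) * b)
      (by fun_prop) (by fun_prop) (by simpa using h)
  · exact ContinuousAt.eventually_lt (f := fun t : ℝ => (1 + t) * a) (g := fun _ => b)
      (by fun_prop) (by fun_prop) (by simpa using h)
  · exact ContinuousAt.eventually_lt (f := fun _ => (0 : ℝ)) (g := fun t : ℝ => 1 + t)
      (by fun_prop) (by fun_prop) (by simp)

lemma cf_derP (k : ℕ) {p q : ℝ → ℝ} (hp : ContDiff ℝ 1 p) (hq : ContDiff ℝ 1 q) {x : V}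
    (hx : eta x ≠ 2 * rho x) :
    HasDerivAt (fun t : ℝ => cf k p q (x + t • pr sP x)) (dP k p q x) 0 := by
  have h3 := rho_nonneg x
  have h4 := eta_nonneg x
  unfold dP
  split_ifs with h
  · have hm : mm x = 2 * rho x := max_eq_left h.le
    refine (der1 hp k (tau x) (q 1) (mm x ^ k)).congr_of_eventuallyEq ?_
    filter_upwards [(ev_lt h).1, (ev_lt h).2.2] with t h1 h2
    have hr : 0 < rho x := by linarith
    have e : mm (x + t • pr sP x) = (1 + t) * mm x := by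
      rw [mm, rho_lineP, eta_lineP, abs_of_pos h2, hm, max_eq_left (by linarith)]
      ring
    simp only [cf, tau, bb, e, rho_lineP, eta_lineP, abs_of_pos h2, mul_pow]
    congr 3
    · rw [div_div, mul_comm]
    · rw [hm]; field_simp
  · have h' : 2 * rho x < eta x := lt_of_le_of_ne (not_lt.1 h) hx.symm
    have hm : mm x = eta x := max_eq_right h'.le
    refine (der2 hq (bb x) (p 1) (mm x ^ k)).congr_of_eventuallyEq ?_
    filter_upwards [(ev_lt h').2.1, (ev_lt h').2.2] with t h1 h2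
    have hr : 0 < eta x := by linarith
    have e : mm (x + t • pr sP x) = mm x := by
      rw [mm, rho_lineP, eta_lineP, abs_of_pos h2, hm, max_eq_right (by linarith)]
    simp only [cf, tau, bb, e, rho_lineP, eta_lineP, abs_of_pos h2]
    rw [add_comm]
    congr 3
    · ring
    · rw [hm]; field_simp

lemma cf_derQ (k : ℕ) {p q : ℝ → ℝ} (hp : ContDiff ℝ 1 p) (hq : ContDiff ℝ 1 q) {x : V}
    (hx : eta x ≠ 2 * rho x) :
    HasDerivAt (fun t : ℝ => cf k p q (x + t • pr sQ x)) (dQ k p q x) 0 := by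
  have h3 := rho_nonneg x
  have h4 := eta_nonneg x
  unfold dQ
  split_ifs with h
  · have hm : mm x = 2 * rho x := max_eq_left h.le
    refine (der2 hp (tau x) (q 1) (mm x ^ k)).congr_of_eventuallyEq ?_
    filter_upwards [(ev_lt h).2.1, (ev_lt h).2.2] with t h1 h2
    have hr : 0 < rho x := by linarith
    have e : mm (x + t • pr sQ x) = mm x := by
      rw [mm, rho_lineQ, eta_lineQ, abs_of_pos h2, hm, max_eq_left (by linarith)]
    simp only [cf, tau, bb, e, rho_lineQ, eta_lineQ, abs_of_pos h2]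
    congr 3
    · ring
    · rw [hm]; field_simp
  · have h' : 2 * rho x < eta x := lt_of_le_of_ne (not_lt.1 h) hx.symm
    have hm : mm x = eta x := max_eq_right h'.le
    refine (der1 hq k (bb x) (p 1) (mm x ^ k)).congr_of_eventuallyEq ?_
    filter_upwards [(ev_lt h').1, (ev_lt h').2.2] with t h1 h2
    have hr : 0 < eta x := by linarith
    have e : mm (x + t • pr sQ x) = (1 + t) * mm x := by
      rw [mm, rho_lineQ, eta_lineQ, abs_of_pos h2, hm, max_eq_right (by linarith)]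
    simp only [cf, tau, bb, e, rho_lineQ, eta_lineQ, abs_of_pos h2, mul_pow]
    rw [add_comm]
    congr 3
    · rw [div_div, mul_comm (mm x)]
    · rw [hm]; field_simp

lemma ibp_cf (s : Finset (Fin 7)) {k : ℕ} (hk : k ≤ 6) {p q : ℝ → ℝ} (hp : ContDiff ℝ 1 p)
    (hq : ContDiff ℝ 1 q) {c' : V → ℝ} (hc' : Measurable c')
    (hs : ∀ (x : V) (t : ℝ), |t| < 1 / 2 → mm (x + t • pr s x) ∈ Icc (mm x / 2) (2 * mm x))
    (hd : ∀ᵐ x : V, HasDerivAt (fun t : ℝ => cf k p q (x + t • pr s x)) (c' x) 0)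
    {ψ : V → ℝ} (hψ : ContDiff ℝ 1 ψ) (hψc : HasCompactSupport ψ) :
    Integrable (fun x => cf k p q x * fderiv ℝ ψ x (pr s x) +
      (s.card * cf k p q x + c' x) * ψ x) ∧
      ∫ x, (cf k p q x * fderiv ℝ ψ x (pr s x) + (s.card * cf k p q x + c' x) * ψ x) = 0 := by
  obtain ⟨C, hC0, hC⟩ := cf_bound k hp hq
  obtain ⟨L, hL0, hL⟩ := cf_lip k hp hq
  refine ibp s hk (measurable_cf k hp hq) hc' (C := C + 2 * L) (by positivity)
    (fun x hx => ?_) (fun x hx t t' ht ht' => ?_) hd hψ hψc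
  · have := mm_pos hx
    refine (hC x).trans ?_
    gcongr
    linarith
  · have hm := mm_pos hx
    refine (hL _ hm _ _ (hs x t ht) (hs x t' ht')).trans ?_
    rw [add_sub_add_left_eq_sub, ← sub_smul, norm_smul, Real.norm_eq_abs]
    have h1 : ‖pr s x‖ ≤ 2 * mm x := (norm_pr_le s x).trans (norm_le_mm x)
    calc L / mm x ^ k * (|t - t'| * ‖pr s x‖ / mm x)
        ≤ L / mm x ^ k * (|t - t'| * (2 * mm x) / mm x) := by gcongr
      _ = 2 * L / mm x ^ k * |t - t'| := by field_simp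
      _ ≤ _ := by
        gcongr
        linarith

/-- A vector field with glued coefficients. -/
noncomputable def fld (k : ℕ) (p q p' q' : ℝ → ℝ) (x : V) : V :=
  cf k p q x • pr sP x + cf k p' q' x • pr sQ x

/-- Its divergence. -/
noncomputable def dv (k : ℕ) (p q p' q' : ℝ → ℝ) (x : V) : ℝ :=
  (3 * cf k p q x + dP k p q x) + (4 * cf k p' q' x + dQ k p' q' x)

lemma measurable_fld (k : ℕ) {p q p' q' : ℝ → ℝ} (hp : ContDiff ℝ 1 p) (hq : ContDiff ℝ 1 q)
    (hp' : ContDiff ℝ 1 p') (hq' : ContDiff ℝ 1 q') : Measurable (fld k p q p' q') :=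
  ((measurable_cf k hp hq).smul (pr sP).continuous.measurable).add
    ((measurable_cf k hp' hq').smul (pr sQ).continuous.measurable)

lemma measurable_dv (k : ℕ) {p q p' q' : ℝ → ℝ} (hp : ContDiff ℝ 1 p) (hq : ContDiff ℝ 1 q)
    (hp' : ContDiff ℝ 1 p') (hq' : ContDiff ℝ 1 q') : Measurable (dv k p q p' q') :=
  (((measurable_cf k hp hq).const_mul 3).add (measurable_dP k q hp)).add
    (((measurable_cf k hp' hq').const_mul 4).add (measurable_dQ k p' hq'))

/-- The divergence theorem for the glued fields. -/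
lemma ibp_fld {k : ℕ} (hk : k ≤ 6) {p q p' q' : ℝ → ℝ} (hp : ContDiff ℝ 1 p)
    (hq : ContDiff ℝ 1 q) (hp' : ContDiff ℝ 1 p') (hq' : ContDiff ℝ 1 q')
    {ψ : V → ℝ} (hψ : ContDiff ℝ 1 ψ) (hψc : HasCompactSupport ψ) :
    Integrable (fun x => fderiv ℝ ψ x (fld k p q p' q' x) + dv k p q p' q' x * ψ x) ∧
      ∫ x, (fderiv ℝ ψ x (fld k p q p' q' x) + dv k p q p' q' x * ψ x) = 0 := by
  obtain ⟨i1, e1⟩ := ibp_cf sP hk hp hq (measurable_dP k q hp) (fun x t ht => mm_lineP x ht)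
    (ae_off_cone.mono fun x hx => cf_derP k hp hq hx) hψ hψc
  obtain ⟨i2, e2⟩ := ibp_cf sQ hk hp' hq' (measurable_dQ k p' hq') (fun x t ht => mm_lineQ x ht)
    (ae_off_cone.mono fun x hx => cf_derQ k hp' hq' hx) hψ hψc
  have e : (fun x => fderiv ℝ ψ x (fld k p q p' q' x) + dv k p q p' q' x * ψ x) = fun x =>
      (cf k p q x * fderiv ℝ ψ x (pr sP x) + (sP.card * cf k p q x + dP k p q x) * ψ x) +
      (cf k p' q' x * fderiv ℝ ψ x (pr sQ x) + (sQ.card * cf k p' q' x + dQ k p' q' x) * ψ x) := by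
    funext x
    simp only [fld, dv, map_add, map_smul, smul_eq_mul, card_sP, card_sQ]
    push_cast
    ring
  rw [e]
  exact ⟨i1.add i2, by rw [integral_add i1 i2, e1, e2, add_zero]⟩

lemma dv_bound (k : ℕ) {p q p' q' : ℝ → ℝ} (hp : ContDiff ℝ 1 p) (hq : ContDiff ℝ 1 q)
    (hp' : ContDiff ℝ 1 p') (hq' : ContDiff ℝ 1 q') :
    ∃ C, 0 ≤ C ∧ ∀ x, |dv k p q p' q' x| ≤ C / mm x ^ k := by
  obtain ⟨C1, h1, b1⟩ := cf_bound k hp hq
  obtain ⟨C2, h2, b2⟩ := dP_bound k hp hq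
  obtain ⟨C3, h3, b3⟩ := cf_bound k hp' hq'
  obtain ⟨C4, h4, b4⟩ := dQ_bound k hp' hq'
  refine ⟨3 * C1 + C2 + 4 * C3 + C4, by positivity, fun x => ?_⟩
  have a1 := abs_le.1 (b1 x)
  have a2 := abs_le.1 (b2 x)
  have a3 := abs_le.1 (b3 x)
  have a4 := abs_le.1 (b4 x)
  have e : (3 * C1 + C2 + 4 * C3 + C4) / mm x ^ k =
      3 * (C1 / mm x ^ k) + C2 / mm x ^ k + 4 * (C3 / mm x ^ k) + C4 / mm x ^ k := by ring
  rw [e, abs_le]
  unfold dv
  constructor <;> linarith [a1.1, a1.2, a2.1, a2.2, a3.1, a3.2, a4.1, a4.2]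

lemma fld_bound {p q p' q' : ℝ → ℝ} (hp : ContDiff ℝ 1 p) (hq : ContDiff ℝ 1 q)
    (hp' : ContDiff ℝ 1 p') (hq' : ContDiff ℝ 1 q') :
    ∃ C, ∀ x, ‖fld 1 p q p' q' x‖ ≤ C := by
  obtain ⟨C1, h1, b1⟩ := cf_bound 1 hp hq
  obtain ⟨C3, h3, b3⟩ := cf_bound 1 hp' hq'
  refine ⟨2 * C1 + 2 * C3, fun x => ?_⟩
  by_cases hx : x = 0
  · subst hx
    simp only [fld, map_zero, smul_zero, add_zero, norm_zero]
    positivity
  have hm := mm_pos hx
  have a : ∀ (s : Finset (Fin 7)) (c C : ℝ), 0 ≤ C → |c| ≤ C / mm x ^ 1 →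
      ‖c • pr s x‖ ≤ 2 * C := by
    intro s c C hC h
    rw [norm_smul, Real.norm_eq_abs]
    calc |c| * ‖pr s x‖ ≤ C / mm x ^ 1 * (2 * mm x) :=
          mul_le_mul h ((norm_pr_le s x).trans (norm_le_mm x)) (norm_nonneg _) (by positivity)
      _ = 2 * C := by field_simp
  exact (norm_add_le _ _).trans (add_le_add (a _ _ _ h1 (b1 x)) (a _ _ _ h3 (b3 x)))

end Vale.Agent.P098C
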