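import Vale.Agent.P098C.Poly
import Vale.Agent.P098C.Calib

/-! # The cone function, its gradient and the pointwise calibration inequalities -/

open MeasureTheory Set Metric Filter
open scoped ContDiff RealInnerProductSpace Topology NNReal

namespace Vale.Agent.P098C

open Vale.Agent.P098

/-- The positive part of `ρ - η² / (4 ρ)`. -/
noncomputable def UU (x : V) : ℝ := (mm x - eta x ^ 2 / mm x) / 2
/-- The first calibrating field. -/
noncomputable def aa : V → V := fld 1 p1 q1 p2 q2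
/-- Its divergence. -/
noncomputable def ff : V → ℝ := dv 1 p1 q1 p2 q2
/-- The second calibrating field. -/
noncomputable def ZZ : V → V := fld 2 p3 q3 p4 q4
/-- Its divergence. -/
noncomputable def dZ : V → ℝ := dv 2 p3 q3 p4 q4

section inside
variable {x : V} (h : eta x < 2 * rho x)
include h

lemma mm_G : mm x = 2 * rho x := max_eq_left h.le
lemma mm_pos_G : 0 < mm x := by
  have := eta_nonneg x
  rw [mm_G h]; linarith
lemma bb_G : bb x = 1 := by
  have := mm_pos_G h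
  rw [bb, ← mm_G h, div_self this.ne']
lemma rho_G : rho x = mm x / 2 := by rw [mm_G h]; ring
lemma eta_G : eta x = tau x * mm x := by
  have := mm_pos_G h
  rw [tau]; field_simp
lemma tau_lt_G : tau x < 1 := by
  rw [tau, div_lt_one (mm_pos_G h), mm_G h]; exact h

lemma fld_G (k : ℕ) (p q p' q' : ℝ → ℝ) : fld k p q p' q' x =
    ((p (tau x) + q 1) / mm x ^ k) • pr sP x + ((p' (tau x) + q' 1) / mm x ^ k) • pr sQ x := by
  simp only [fld, cf, bb_G h]

lemma dv_G (k : ℕ) (p q p' q' : ℝ → ℝ) :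
    dv k p q p' q' x = DG' k p q p' q' (tau x) / mm x ^ k := by
  simp only [dv, cf, dP, dQ, if_pos h, bb_G h, DG']
  ring

lemma UU_G : UU x = mm x * (1 - tau x ^ 2) / 2 := by
  have := mm_pos_G h
  rw [UU, eta_G h]
  field_simp

lemma UU_pos_G : 0 < UU x := by
  have h1 := mm_pos_G h
  have h2 := tau_lt_G h
  have h3 := (tau_mem x).1
  have h4 : 0 < 1 - tau x ^ 2 := by nlinarith
  rw [UU_G h]
  positivity

lemma aa_G : aa x = (2 * (1 + tau x ^ 2) / mm x) • pr sP x + (-1 / mm x) • pr sQ x := by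
  rw [aa, fld_G h]
  congr 3
  · simp only [p1, q1, cub]; ring
  · simp
  · simp only [p2, q2, cub]; ring
  · simp

lemma ff_G : ff x = 0 := by
  rw [ff, dv_G h, DG1, zero_div]

lemma neg_G : ‖ZZ x‖ ^ 2 + dZ x ≤ 0 := by
  have hm := mm_pos_G h
  have e : ‖ZZ x‖ ^ 2 + dZ x = -eG1 (tau x) / mm x ^ 2 := by
    rw [ZZ, dZ, fld_G h, dv_G h, norm_comb_sq, rho_G h, eta_G h, eG1, DG]
    field_simp
    ring
  rw [e]
  exact div_nonpos_of_nonpos_of_nonneg (neg_nonpos.2 (G1 (tau_mem x))) (by positivity)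

lemma zero_G : 0 ≤ ‖aa x‖ ^ 2 - 5 - 2 * UU x * ⟪ZZ x, aa x⟫ - dZ x * UU x ^ 2 := by
  have hm := mm_pos_G h
  have e : ‖aa x‖ ^ 2 - 5 - 2 * UU x * ⟪ZZ x, aa x⟫ - dZ x * UU x ^ 2 =
      (1 - tau x ^ 2) * eG2 (tau x) := by
    rw [ZZ, dZ, fld_G h, dv_G h, aa_G h, norm_comb_sq, inner_comb, UU_G h, rho_G h, eta_G h,
      eG2, DG]
    field_simp
    ring
  have h2 := tau_lt_G h
  have h3 := (tau_mem x).1
  rw [e]
  exact mul_nonneg (by nlinarith) (G2 (tau_mem x))

end inside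

section outside
variable {x : V} (h : ¬ eta x < 2 * rho x)
include h

lemma mm_C : mm x = eta x := max_eq_right (not_lt.1 h)

lemma UU_C : UU x = 0 := by
  rw [UU, mm_C h]
  by_cases h0 : eta x = 0
  · simp [h0]
  · field_simp
    simp

variable (hx : x ≠ 0)
include hx

lemma tau_C : tau x = 1 := by
  have := mm_pos hx
  rw [tau, ← mm_C h, div_self this.ne']
omit h in
lemma rho_C : rho x = bb x * mm x / 2 := by
  have := mm_pos hx
  rw [bb]; field_simp

lemma fld_C (k : ℕ) (p q p' q' : ℝ → ℝ) : fld k p q p' q' x =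
    ((p 1 + q (bb x)) / mm x ^ k) • pr sP x + ((p' 1 + q' (bb x)) / mm x ^ k) • pr sQ x := by
  simp only [fld, cf, tau_C h hx]

lemma dv_C (k : ℕ) (p q p' q' : ℝ → ℝ) :
    dv k p q p' q' x = DC k p q p' q' (bb x) / mm x ^ k := by
  simp only [dv, cf, dP, dQ, if_neg h, tau_C h hx, DC]
  ring

lemma aa_C : ‖aa x‖ ^ 2 ≤ 5 := by
  have hm := mm_pos hx
  have e : 5 - ‖aa x‖ ^ 2 = eC1 (bb x) := by
    rw [aa, fld_C h hx, norm_comb_sq, rho_C hx, ← mm_C h, eC1]
    field_simp
    ring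
  have := C1 (bb_mem x)
  linarith

lemma neg_C : ‖ZZ x‖ ^ 2 + dZ x ≤ 0 := by
  have hm := mm_pos hx
  have e : ‖ZZ x‖ ^ 2 + dZ x = -eC2 (bb x) / mm x ^ 2 := by
    rw [ZZ, dZ, fld_C h hx, dv_C h hx, norm_comb_sq, rho_C hx, ← mm_C h, eC2]
    field_simp
    ring
  rw [e]
  exact div_nonpos_of_nonpos_of_nonneg (neg_nonpos.2 (C2 (bb_mem x))) (by positivity)

lemma mix_C : ⟪aa x, ZZ x⟫ + ff x ≤ 0 := by
  have hm := mm_pos hx
  have e : ⟪aa x, ZZ x⟫ + ff x = -eC3 (bb x) / mm x := by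
    rw [aa, ZZ, ff, fld_C h hx, fld_C h hx, dv_C h hx, inner_comb, rho_C hx, ← mm_C h, eC3]
    field_simp
    ring
  rw [e]
  exact div_nonpos_of_nonpos_of_nonneg (neg_nonpos.2 (C3 (bb_mem x))) hm.le

end outside

lemma neg_all {x : V} (hx : x ≠ 0) : ‖ZZ x‖ ^ 2 + dZ x ≤ 0 := by
  by_cases h : eta x < 2 * rho x
  · exact neg_G h
  · exact neg_C h hx

lemma UU_nonneg (x : V) : 0 ≤ UU x := by
  by_cases h : eta x < 2 * rho x
  · exact (UU_pos_G h).le
  · exact (UU_C h).ge

lemma lip_ratio : LipschitzWith 4 fun x => eta x ^ 2 / mm x := by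
  refine LipschitzWith.of_le_add_mul 4 fun y x => ?_
  have t0 := (tau_mem y).1
  have t1 := (tau_mem y).2
  have e1 : eta y ^ 2 / mm y = 2 * tau y * eta y - tau y ^ 2 * mm y := by
    by_cases h0 : mm y = 0
    · simp [tau, h0]
    · rw [tau]; field_simp; ring
  have e2 : 2 * tau y * eta x - tau y ^ 2 * mm x ≤ eta x ^ 2 / mm x := by
    rcases (mm_nonneg x).eq_or_lt with h0 | h0
    · have h1 : eta x = 0 := le_antisymm ((eta_le_mm x).trans h0.ge) (eta_nonneg x)
      simp [← h0, h1]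
    · rw [le_div_iff₀ h0]
      nlinarith [sq_nonneg (eta x - tau y * mm x)]
  have a1 := lip_eta.dist_le_mul y x
  have a2 := lip_mm.dist_le_mul y x
  rw [Real.dist_eq] at a1 a2
  simp only [NNReal.coe_one, one_mul, NNReal.coe_ofNat] at a1 a2 ⊢
  have b1 := (abs_le.1 a1).2
  have b2 := (abs_le.1 a2).1
  have d0 : 0 ≤ dist y x := dist_nonneg
  have c1 : tau y * (eta y - eta x) ≤ dist y x :=
    (mul_le_mul_of_nonneg_left b1 t0).trans (mul_le_of_le_one_left d0 t1)
  have t2 : tau y ^ 2 ≤ 1 := pow_le_one₀ t0 t1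
  have c2 : tau y ^ 2 * (mm x - mm y) ≤ 2 * dist y x :=
    (mul_le_mul_of_nonneg_left (show mm x - mm y ≤ 2 * dist y x by linarith)
      (sq_nonneg _)).trans (mul_le_of_le_one_left (by positivity) t2)
  nlinarith

lemma lip_UU : LipschitzWith 3 UU := by
  refine LipschitzWith.of_dist_le_mul fun x y => ?_
  have a1 := lip_ratio.dist_le_mul x y
  have a2 := lip_mm.dist_le_mul x y
  rw [Real.dist_eq] at a1 a2 ⊢
  simp only [NNReal.coe_ofNat] at a1 a2 ⊢
  have b1 := abs_le.1 a1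
  have b2 := abs_le.1 a2
  unfold UU
  rw [abs_le]
  constructor <;> linarith [b1.1, b1.2, b2.1, b2.2]

lemma hasFDerivAt_sq (s : Finset (Fin 7)) (x : V) :
    HasFDerivAt (fun y : V => ‖pr s y‖ ^ 2) ((2 : ℝ) • innerSL ℝ (pr s x)) x := by
  refine ((pr s).hasFDerivAt (x := x)).norm_sq.congr_fderiv ?_
  ext v
  have e : ⟪pr s x, pr s v⟫ = ⟪pr s x, v⟫ := by rw [← inner_pr, pr_pr]
  simp [e]

lemma grad_G {x : V} (h : eta x < 2 * rho x) : HasGradientAt UU (aa x) x := by
  have hm := mm_pos_G h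
  have hr : 0 < rho x := by rw [rho_G h]; positivity
  have h1 : HasFDerivAt rho ((rho x)⁻¹ • innerSL ℝ (pr sP x)) x := by
    have a := (hasFDerivAt_sq sP x).sqrt (by
      have : 0 < ‖pr sP x‖ := hr
      positivity)
    simp only [Real.sqrt_sq (norm_nonneg _)] at a
    refine a.congr_fderiv ?_
    rw [smul_smul]
    congr 1
    change 1 / (2 * rho x) * 2 = _
    field_simp
  have h2 : HasFDerivAt (fun y => eta y ^ 2) ((2 : ℝ) • innerSL ℝ (pr sQ x)) x :=
    hasFDerivAt_sq sQ x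
  have h3 := (hasDerivAt_inv hr.ne').comp_hasFDerivAt x h1
  have h4 := h1.fun_sub ((h2.fun_mul h3).const_mul (1 / 4))
  rw [hasGradientAt_iff_hasFDerivAt]
  refine (h4.congr_fderiv ?_).congr_of_eventuallyEq ?_
  · ext v
    rw [aa_G h, tau, mm_G h]
    simp
    field_simp
    ring
  · have ho : IsOpen {y : V | eta y < 2 * rho y} :=
      isOpen_lt lip_eta.continuous lip_two_rho.continuous
    filter_upwards [ho.mem_nhds h] with y hy
    have hy' : eta y < 2 * rho y := hy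
    have := eta_nonneg y
    have hr' : 0 < rho y := by linarith
    rw [UU, mm_G hy']
    simp only [Function.comp]
    field_simp
    ring

lemma grad_C {x : V} (h : 2 * rho x < eta x) : HasGradientAt UU 0 x := by
  have ho : IsOpen {y : V | 2 * rho y < eta y} :=
    isOpen_lt lip_two_rho.continuous lip_eta.continuous
  refine (hasGradientAt_const x (0 : ℝ)).congr_of_eventuallyEq ?_
  filter_upwards [ho.mem_nhds h] with y hy
  exact UU_C (not_lt.2 (le_of_lt hy))

end Vale.Agent.P098C
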