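import Vale.Agent.P098.H510.Conv

/-! # The splitting of seven-space as three-space times four-space; homogeneous coefficients -/

open MeasureTheory Set Metric Filter
open scoped ContDiff RealInnerProductSpace Topology NNReal

namespace Vale.Agent.P098C

/-- Seven-space. -/
abbrev V := EuclideanSpace ℝ (Fin 7)

/-- The projection on the coordinates in `s`. -/
noncomputable def pr (s : Finset (Fin 7)) : V →L[ℝ] V :=
  ∑ i ∈ s, (EuclideanSpace.proj i : V →L[ℝ] ℝ).smulRight (EuclideanSpace.single i (1 : ℝ))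

lemma pr_eq (s : Finset (Fin 7)) (x : V) :
    pr s x = ∑ i ∈ s, x i • EuclideanSpace.single i (1 : ℝ) := by
  simp [pr]

lemma pr_apply (s : Finset (Fin 7)) (x : V) (j : Fin 7) :
    pr s x j = if j ∈ s then x j else 0 := by
  rw [pr_eq]
  simp [Pi.single_apply]

/-- The first three coordinates. -/
def sP : Finset (Fin 7) := {0, 1, 2}
/-- The last four coordinates. -/
def sQ : Finset (Fin 7) := {3, 4, 5, 6}

lemma card_sP : sP.card = 3 := by decide
lemma card_sQ : sQ.card = 4 := by decide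
lemma mem_sQ (j : Fin 7) : j ∈ sQ ↔ j ∉ sP := by revert j; decide

lemma P_add_Q (x : V) : pr sP x + pr sQ x = x := by
  ext j
  by_cases h : j ∈ sP <;> simp [pr_apply, mem_sQ, h]

lemma pr_pr (s : Finset (Fin 7)) (x : V) : pr s (pr s x) = pr s x := by
  ext j
  by_cases h : j ∈ s <;> simp [pr_apply, h]

lemma P_Q (x : V) : pr sP (pr sQ x) = 0 := by
  ext j
  by_cases h : j ∈ sP <;> simp [pr_apply, mem_sQ, h]

lemma Q_P (x : V) : pr sQ (pr sP x) = 0 := by
  ext j
  by_cases h : j ∈ sP <;> simp [pr_apply, mem_sQ, h]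

lemma inner_pr (s : Finset (Fin 7)) (x y : V) : ⟪pr s x, y⟫ = ⟪x, pr s y⟫ := by
  simp only [PiLp.inner_apply, pr_apply]
  refine Finset.sum_congr rfl fun j _ => ?_
  by_cases h : j ∈ s <;> simp [h]

lemma inner_PQ (x y : V) : ⟪pr sP x, pr sQ y⟫ = 0 := by
  rw [inner_pr, P_Q, inner_zero_right]

/-- The norm of the first three coordinates. -/
noncomputable def rho (x : V) : ℝ := ‖pr sP x‖
/-- The norm of the last four coordinates. -/
noncomputable def eta (x : V) : ℝ := ‖pr sQ x‖
/-- A norm adapted to the cone `η = 2 ρ`. -/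
noncomputable def mm (x : V) : ℝ := max (2 * rho x) (eta x)

lemma rho_nonneg (x : V) : 0 ≤ rho x := norm_nonneg _
lemma eta_nonneg (x : V) : 0 ≤ eta x := norm_nonneg _
lemma mm_nonneg (x : V) : 0 ≤ mm x := (eta_nonneg x).trans (le_max_right _ _)

lemma norm_comb_sq (a b : ℝ) (x : V) :
    ‖a • pr sP x + b • pr sQ x‖ ^ 2 = a ^ 2 * rho x ^ 2 + b ^ 2 * eta x ^ 2 := by
  rw [norm_add_sq_real, inner_smul_left, inner_smul_right, inner_PQ, norm_smul, norm_smul]
  simp [rho, eta, mul_pow]

lemma inner_comb (a b c d : ℝ) (x : V) :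
    ⟪a • pr sP x + b • pr sQ x, c • pr sP x + d • pr sQ x⟫ =
      a * c * rho x ^ 2 + b * d * eta x ^ 2 := by
  have h : ⟪pr sQ x, pr sP x⟫ = 0 := by rw [real_inner_comm, inner_PQ]
  simp only [inner_add_left, inner_add_right, inner_smul_left, inner_smul_right, inner_PQ, h,
    real_inner_self_eq_norm_sq, rho, eta]
  simp
  ring

lemma norm_sq_eq (x : V) : ‖x‖ ^ 2 = rho x ^ 2 + eta x ^ 2 := by
  have h := norm_comb_sq 1 1 x
  simpa [P_add_Q] using h

lemma norm_pr_le (s : Finset (Fin 7)) (x : V) : ‖pr s x‖ ≤ ‖x‖ := by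
  have h : ‖pr s x‖ ^ 2 ≤ ‖pr s x‖ * ‖x‖ := by
    rw [← real_inner_self_eq_norm_sq, inner_pr, pr_pr, mul_comm]
    exact real_inner_le_norm _ _
  rcases (norm_nonneg (pr s x)).eq_or_lt with h0 | h0
  · rw [← h0]; exact norm_nonneg _
  · nlinarith

lemma norm_le_mm (x : V) : ‖x‖ ≤ 2 * mm x := by
  have h1 : 2 * rho x ≤ mm x := le_max_left _ _
  have h2 : eta x ≤ mm x := le_max_right _ _
  have h3 := norm_sq_eq x
  have h4 := rho_nonneg x
  have h5 := eta_nonneg x
  nlinarith [norm_nonneg x]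

lemma mm_pos {x : V} (hx : x ≠ 0) : 0 < mm x := by
  have h := norm_le_mm x
  have h2 : 0 < ‖x‖ := norm_pos_iff.2 hx
  linarith

lemma lip_norm_pr (s : Finset (Fin 7)) : LipschitzWith 1 fun x : V => ‖pr s x‖ := by
  refine LipschitzWith.of_dist_le_mul fun x y => ?_
  rw [NNReal.coe_one, one_mul, Real.dist_eq, dist_eq_norm]
  refine (abs_norm_sub_norm_le _ _).trans ?_
  rw [← map_sub]
  exact norm_pr_le s _

lemma lip_rho : LipschitzWith 1 rho := lip_norm_pr sP
lemma lip_eta : LipschitzWith 1 eta := lip_norm_pr sQ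

lemma lip_two_rho : LipschitzWith 2 fun x => 2 * rho x := by
  refine LipschitzWith.of_dist_le_mul fun x y => ?_
  have h := lip_rho.dist_le_mul x y
  rw [Real.dist_eq] at h ⊢
  rw [← mul_sub, abs_mul]
  simp only [NNReal.coe_one, one_mul, NNReal.coe_ofNat, abs_two] at h ⊢
  linarith

lemma lip_mm : LipschitzWith 2 mm := by
  have h := lip_two_rho.max lip_eta
  exact h.weaken (by norm_num)

lemma rho_smul (c : ℝ) (x : V) : rho (c • x) = |c| * rho x := by
  simp [rho, norm_smul]

lemma eta_smul (c : ℝ) (x : V) : eta (c • x) = |c| * eta x := by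
  simp [eta, norm_smul]

lemma mm_smul (c : ℝ) (x : V) : mm (c • x) = |c| * mm x := by
  unfold mm
  rw [rho_smul, eta_smul, mul_max_of_nonneg _ _ (abs_nonneg c)]
  congr 1
  ring

lemma rho_lineP (x : V) (t : ℝ) : rho (x + t • pr sP x) = |1 + t| * rho x := by
  unfold rho
  rw [map_add, map_smul, pr_pr, ← Real.norm_eq_abs, ← norm_smul, add_smul, one_smul]

lemma eta_lineP (x : V) (t : ℝ) : eta (x + t • pr sP x) = eta x := by
  unfold eta
  rw [map_add, map_smul, Q_P, smul_zero, add_zero]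

lemma rho_lineQ (x : V) (t : ℝ) : rho (x + t • pr sQ x) = rho x := by
  unfold rho
  rw [map_add, map_smul, P_Q, smul_zero, add_zero]

lemma eta_lineQ (x : V) (t : ℝ) : eta (x + t • pr sQ x) = |1 + t| * eta x := by
  unfold eta
  rw [map_add, map_smul, pr_pr, ← Real.norm_eq_abs, ← norm_smul, add_smul, one_smul]

lemma ae_ne_zero : ∀ᵐ x : V, x ≠ 0 := by
  rw [ae_iff]
  simp

/-- The cone `η = 2 ρ` has measure zero. -/
lemma ae_off_cone : ∀ᵐ x : V, eta x ≠ 2 * rho x := by
  have hm : Measurable fun x : V => eta x / rho x :=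
    lip_eta.continuous.measurable.div lip_rho.continuous.measurable
  have hc := Measure.countable_meas_level_set_pos (μ := (volume : Measure V)) hm
  obtain ⟨c, hc0, hcn⟩ : ∃ c ∈ Ioi (0 : ℝ), c ∉ {t : ℝ | 0 < volume {x : V | eta x / rho x = t}} := by
    by_contra h
    push Not at h
    have h2 : (Ioi (0 : ℝ)).Countable := hc.mono h
    have h3 : volume (Ioi (0 : ℝ)) = 0 := h2.measure_zero _
    simp at h3
  have hc0' : 0 < c := hc0
  have hz : volume {x : V | eta x / rho x = c} = 0 := by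
    simpa using hcn
  let L : V →L[ℝ] V := pr sP + (2 / c) • pr sQ
  have hi := addHaar_image_eq_zero_of_differentiableOn_of_addHaar_eq_zero volume
    (L.differentiable.differentiableOn) hz
  have h0 : volume ({0} : Set V) = 0 := by simp
  rw [ae_iff]
  refine measure_mono_null (t := L '' {x : V | eta x / rho x = c} ∪ {0}) ?_
    (measure_union_null hi h0)
  intro x hx
  have hx' : eta x = 2 * rho x := by simpa using hx
  by_cases hx0 : x = 0
  · exact Or.inr hx0
  have hr : 0 < rho x := by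
    have h1 := mm_pos hx0
    unfold mm at h1
    rw [hx', max_self] at h1
    linarith
  refine Or.inl ⟨pr sP x + (c / 2) • pr sQ x, ?_, ?_⟩
  · have e1 : rho (pr sP x + (c / 2) • pr sQ x) = rho x := by
      unfold rho
      rw [map_add, map_smul, pr_pr, P_Q, smul_zero, add_zero]
    have e2 : eta (pr sP x + (c / 2) • pr sQ x) = c / 2 * eta x := by
      unfold eta
      rw [map_add, map_smul, pr_pr, Q_P, zero_add, norm_smul, Real.norm_eq_abs,
        abs_of_pos (by positivity)]
    change eta _ / rho _ = c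
    rw [e1, e2, hx']
    field_simp
  · simp only [L, ContinuousLinearMap.add_apply, ContinuousLinearMap.smul_apply, map_add,
      map_smul, pr_pr, P_Q, Q_P, smul_zero, add_zero, zero_add, smul_smul]
    rw [show c / 2 * (2 / c) = 1 by field_simp, one_smul, P_add_Q]

/-! ### Bounded Lipschitz functions -/

/-- Bounded and Lipschitz. -/
def BL (f : V → ℝ) : Prop := ∃ (C : ℝ) (K : ℝ≥0), (∀ x, |f x| ≤ C) ∧ LipschitzWith K f

lemma BL.add {f g : V → ℝ} (hf : BL f) (hg : BL g) : BL fun x => f x + g x := by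
  obtain ⟨C, K, h1, h2⟩ := hf
  obtain ⟨D, L, h3, h4⟩ := hg
  exact ⟨C + D, K + L, fun x => (abs_add_le _ _).trans (add_le_add (h1 x) (h3 x)), h2.add h4⟩

lemma BL.mul {f g : V → ℝ} (hf : BL f) (hg : BL g) : BL fun x => f x * g x := by
  obtain ⟨C, K, h1, h2⟩ := hf
  obtain ⟨D, L, h3, h4⟩ := hg
  have hC : 0 ≤ C := (abs_nonneg _).trans (h1 0)
  have hD : 0 ≤ D := (abs_nonneg _).trans (h3 0)
  refine ⟨C * D, ⟨C * L + K * D, by positivity⟩, fun x => ?_,
    LipschitzWith.of_dist_le_mul fun x y => ?_⟩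
  · rw [abs_mul]
    exact mul_le_mul (h1 x) (h3 x) (abs_nonneg _) hC
  · have a1 := h2.dist_le_mul x y
    have a2 := h4.dist_le_mul x y
    rw [Real.dist_eq] at a1 a2 ⊢
    have e : f x * g x - f y * g y = f x * (g x - g y) + (f x - f y) * g y := by ring
    rw [e]
    refine (abs_add_le _ _).trans ?_
    rw [abs_mul, abs_mul]
    have b1 := mul_le_mul (h1 x) a2 (abs_nonneg _) hC
    have b2 := mul_le_mul a1 (h3 y) (abs_nonneg _) (by positivity)
    change _ ≤ (C * L + K * D) * dist x y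
    linarith

lemma BL.comp {f : V → ℝ} (hf : BL f) {p : ℝ → ℝ} (hp : ContDiff ℝ 1 p) : BL fun x => p (f x) := by
  obtain ⟨C, K, h1, h2⟩ := hf
  obtain ⟨L, hL⟩ := (hp.contDiffOn (s := Icc (-C) C)).exists_lipschitzOnWith (by norm_num)
    (convex_Icc _ _) isCompact_Icc
  obtain ⟨D, hD⟩ := isCompact_Icc.exists_bound_of_continuousOn
    (hp.continuous.continuousOn (s := Icc (-C) C))
  have hm : ∀ x, f x ∈ Icc (-C) C := fun x => abs_le.1 (h1 x)
  refine ⟨D, L * K, fun x => hD _ (hm x), ?_⟩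
  rw [← lipschitzOnWith_univ]
  exact hL.comp (h2.lipschitzOnWith) fun x _ => hm x

lemma BL.ratio {f μ : V → ℝ} {K L : ℝ≥0} (hf : LipschitzWith K f) (hμ : LipschitzWith L μ)
    (h0 : ∀ x, 0 ≤ f x) (h1 : ∀ x, f x ≤ μ x) (h2 : ∀ x, 1 ≤ μ x) : BL fun x => f x / μ x := by
  refine ⟨1, K + L, fun x => ?_, LipschitzWith.of_dist_le_mul fun x y => ?_⟩
  · have := h2 x
    rw [abs_of_nonneg (div_nonneg (h0 x) (by linarith)), div_le_one (by linarith)]
    exact h1 x
  · have a1 := hf.dist_le_mul x y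
    have a2 := hμ.dist_le_mul x y
    have hx := h2 x
    have hy := h2 y
    rw [Real.dist_eq] at a1 a2 ⊢
    have e : f x / μ x - f y / μ y = ((f x - f y) + f y / μ y * (μ y - μ x)) / μ x := by
      field_simp
      ring
    have ht0 : 0 ≤ f y / μ y := div_nonneg (h0 y) (by linarith)
    have ht1 : f y / μ y ≤ 1 := by rw [div_le_one (by linarith)]; exact h1 y
    rw [e, abs_div, abs_of_pos (show 0 < μ x by linarith), div_le_iff₀ (by linarith)]
    have b1 : |(f x - f y) + f y / μ y * (μ y - μ x)| ≤ |f x - f y| + |μ x - μ y| := by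
      refine (abs_add_le _ _).trans (add_le_add le_rfl ?_)
      rw [abs_mul, abs_of_nonneg ht0, abs_sub_comm]
      exact mul_le_of_le_one_left (abs_nonneg _) ht1
    have b2 : 0 ≤ ((K + L : ℝ≥0) : ℝ) * dist x y := by positivity
    have b3 : ((K + L : ℝ≥0) : ℝ) * dist x y = K * dist x y + L * dist x y := by
      push_cast; ring
    nlinarith

end Vale.Agent.P098C
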