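import Vale.Agent.P098C.Geom

/-! # Integration by parts along the dilations of a block of coordinates -/

open MeasureTheory Set Metric Filter
open scoped ContDiff RealInnerProductSpace Topology NNReal

namespace Vale.Agent.P098C

/-- The dilation of the coordinates in `s` by the factor `1 + t`. -/
noncomputable def dil (s : Finset (Fin 7)) (t : ℝ) : V →L[ℝ] V :=
  ContinuousLinearMap.id ℝ V + t • pr s

lemma dil_apply (s : Finset (Fin 7)) (t : ℝ) (x : V) : dil s t x = x + t • pr s x := by
  simp [dil]

lemma det_dil (s : Finset (Fin 7)) (t : ℝ) :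
    LinearMap.det (dil s t : V →ₗ[ℝ] V) = (1 + t) ^ s.card := by
  rw [← LinearMap.det_toMatrix (EuclideanSpace.basisFun (Fin 7) ℝ).toBasis]
  have h : LinearMap.toMatrix (EuclideanSpace.basisFun (Fin 7) ℝ).toBasis
      (EuclideanSpace.basisFun (Fin 7) ℝ).toBasis (dil s t : V →ₗ[ℝ] V) =
      Matrix.diagonal fun i => if i ∈ s then 1 + t else 1 := by
    ext i j
    rw [LinearMap.toMatrix_apply]
    by_cases hij : i = j
    · subst hij
      by_cases h : i ∈ s <;> simp [dil_apply, pr_apply, h]
    · by_cases h : i ∈ s <;> simp [dil_apply, pr_apply, h, hij]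
  rw [h, Matrix.det_diagonal, Finset.prod_ite_mem, Finset.univ_inter, Finset.prod_const]

lemma integral_dil (s : Finset (Fin 7)) {t : ℝ} (ht : 0 < 1 + t) {F : V → ℝ}
    (hF : Measurable F) :
    ∫ x, F (x + t • pr s x) = ((1 + t) ^ s.card)⁻¹ * ∫ x, F x := by
  have hdet : LinearMap.det (dil s t : V →ₗ[ℝ] V) ≠ 0 := by
    rw [det_dil]; positivity
  have h := Measure.map_linearMap_addHaar_eq_smul_addHaar (volume : Measure V) hdet
  have h2 := integral_map (μ := (volume : Measure V)) (φ := (dil s t : V →ₗ[ℝ] V))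
    (dil s t).continuous.measurable.aemeasurable (f := F) hF.aestronglyMeasurable
  rw [h, integral_smul_measure, det_dil, ENNReal.toReal_ofReal (abs_nonneg _),
    abs_of_pos (by positivity), smul_eq_mul] at h2
  rw [h2]
  simp [dil_apply]

lemma measurable_mm : Measurable mm := lip_mm.continuous.measurable

lemma locInt_mm {k : ℕ} (hk : k ≤ 6) : LocallyIntegrable (fun x : V => 1 / mm x ^ k) volume := by
  refine locallyIntegrable_of_norm_le_rpow (C := 2 ^ k) (α := k) (by simp) ?_ ?_ ?_
  · simp only [finrank_euclideanSpace, Fintype.card_fin]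
    exact_mod_cast (by omega : k < 7)
  · filter_upwards [ae_ne_zero] with x hx
    have h1 := mm_pos hx
    have h2 : 0 < ‖x‖ := norm_pos_iff.2 hx
    have h3 := norm_le_mm x
    rw [Real.norm_eq_abs, abs_of_pos (by positivity), Real.rpow_neg h2.le, Real.rpow_natCast,
      ← div_eq_mul_inv, div_le_div_iff₀ (by positivity) (by positivity), one_mul, ← mul_pow]
    exact pow_le_pow_left₀ h2.le h3 k
  · exact ((measurable_mm.pow_const k).const_div 1).aestronglyMeasurable

lemma intOn_mm {k : ℕ} (hk : k ≤ 6) (x₀ : V) (r : ℝ) :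
    IntegrableOn (fun x : V => 1 / mm x ^ k) (closedBall x₀ r) volume :=
  (locInt_mm hk).integrableOn_isCompact (isCompact_closedBall x₀ r)

lemma norm_line_ge (s : Finset (Fin 7)) (x : V) {t : ℝ} (ht : |t| < 1 / 2) :
    ‖x‖ / 2 ≤ ‖x + t • pr s x‖ := by
  have h1 : ‖x‖ ≤ ‖x + t • pr s x‖ + ‖t • pr s x‖ := by
    have := norm_sub_le (x + t • pr s x) (t • pr s x)
    simpa using this
  have h2 : ‖t • pr s x‖ ≤ 1 / 2 * ‖x‖ := by
    rw [norm_smul, Real.norm_eq_abs]
    exact mul_le_mul ht.le (norm_pr_le s x) (norm_nonneg _) (by norm_num)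
  linarith

/-- Integration by parts for a coefficient that is Lipschitz along the dilations. -/
lemma ibp (s : Finset (Fin 7)) {c c' : V → ℝ} {k : ℕ} (hk : k ≤ 6) (hc : Measurable c)
    (hc' : Measurable c') {C : ℝ} (hC : 0 ≤ C) (hb : ∀ x, x ≠ 0 → |c x| ≤ C / mm x ^ k)
    (hl : ∀ x, x ≠ 0 → ∀ t t' : ℝ, |t| < 1 / 2 → |t'| < 1 / 2 →
      |c (x + t • pr s x) - c (x + t' • pr s x)| ≤ C / mm x ^ k * |t - t'|)
    (hd : ∀ᵐ x : V, HasDerivAt (fun t : ℝ => c (x + t • pr s x)) (c' x) 0)
    {ψ : V → ℝ} (hψ : ContDiff ℝ 1 ψ) (hψc : HasCompactSupport ψ) :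
    Integrable (fun x => c x * fderiv ℝ ψ x (pr s x) + (s.card * c x + c' x) * ψ x) ∧
      ∫ x, (c x * fderiv ℝ ψ x (pr s x) + (s.card * c x + c' x) * ψ x) = 0 := by
  obtain ⟨K, hK⟩ := hψ.lipschitzWith_of_hasCompactSupport hψc (by simp)
  obtain ⟨M, hM⟩ := hψ.continuous.bounded_above_of_compact_support hψc
  obtain ⟨R, hR0, hR⟩ := hψc.isCompact.isBounded.exists_pos_norm_lt
  have hM0 : 0 ≤ M := (norm_nonneg _).trans (hM 0)
  have hz : ∀ y : V, R ≤ ‖y‖ → ψ y = 0 := by
    intro y hy
    by_contra h
    exact absurd (hR y (subset_tsupport _ h)) (not_lt.2 hy)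
  have hψm : Measurable ψ := hψ.continuous.measurable
  have hprm : Continuous fun x : V => fderiv ℝ ψ x (pr s x) :=
    (hψ.continuous_fderiv (by simp)).clm_apply (pr s).continuous
  let bound : V → ℝ := (closedBall (0 : V) (2 * R)).indicator
    fun x => (C * (4 * K * R + M)) * (1 / mm x ^ k)
  have hbi : Integrable bound := by
    rw [integrable_indicator_iff measurableSet_closedBall]
    exact (intOn_mm hk 0 (2 * R)).const_mul _
  have hb0 : ∀ x, 0 ≤ bound x := by
    intro x
    refine indicator_nonneg (fun y _ => ?_) x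
    have := mm_nonneg y
    positivity
  have hF0 : Integrable fun x => c x * ψ x := by
    refine hbi.mono' (hc.mul hψm).aestronglyMeasurable ?_
    filter_upwards [ae_ne_zero] with x hx
    by_cases h : x ∈ closedBall (0 : V) (2 * R)
    · have h1 := hb x hx
      have h2 := hM x
      have h3 := mm_pos hx
      simp only [bound, indicator_of_mem h]
      rw [norm_mul, Real.norm_eq_abs]
      calc |c x| * ‖ψ x‖ ≤ C / mm x ^ k * M := mul_le_mul h1 h2 (norm_nonneg _) (by positivity)
        _ ≤ C / mm x ^ k * (4 * K * R + M) := by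
          gcongr
          have : 0 ≤ 4 * (K : ℝ) * R := by positivity
          linarith
        _ = _ := by ring
    · rw [hz x (by simp at h; linarith)]
      simpa using hb0 x
  have key := hasDerivAt_integral_of_dominated_loc_of_lip (μ := (volume : Measure V))
    (F := fun (t : ℝ) (x : V) => c (x + t • pr s x) * ψ (x + t • pr s x))
    (F' := fun x => c' x * ψ x + c x * fderiv ℝ ψ x (pr s x)) (x₀ := (0 : ℝ)) (bound := bound)
    (s := ball (0 : ℝ) (1 / 2)) (ball_mem_nhds _ (by norm_num)) ?_ (by simpa using hF0)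
    ((hc'.mul hψm).add (hc.mul hprm.measurable)).aestronglyMeasurable ?_ hbi ?_
  · obtain ⟨i1, d1⟩ := key
    have d2 : HasDerivAt (fun t : ℝ => ((1 + t) ^ s.card)⁻¹ * ∫ x, c x * ψ x)
        (-(s.card : ℝ) * ∫ x, c x * ψ x) 0 := by
      have h1 : HasDerivAt (fun t : ℝ => (1 + t) ^ s.card) (s.card : ℝ) 0 := by
        have h := ((hasDerivAt_id' (0 : ℝ)).const_add 1).fun_pow s.card
        exact h.congr_deriv (by simp)
      have h2 := (h1.inv (by simp)).mul_const (∫ x, c x * ψ x)
      simpa using h2
    have e : (fun t : ℝ => ∫ x, c (x + t • pr s x) * ψ (x + t • pr s x)) =ᶠ[𝓝 0]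
        fun t : ℝ => ((1 + t) ^ s.card)⁻¹ * ∫ x, c x * ψ x := by
      filter_upwards [Ioi_mem_nhds (show (-1 : ℝ) < 0 by norm_num)] with t ht
      exact integral_dil s (by simp at ht; linarith) (hc.mul hψm)
    have e2 := d1.unique (d2.congr_of_eventuallyEq e)
    have e3 : (fun x => c x * fderiv ℝ ψ x (pr s x) + (s.card * c x + c' x) * ψ x) =
        fun x => (c' x * ψ x + c x * fderiv ℝ ψ x (pr s x)) + s.card * (c x * ψ x) := by
      funext x; ring
    rw [e3]
    refine ⟨i1.add (hF0.const_mul _), ?_⟩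
    rw [integral_add i1 (hF0.const_mul _), e2, integral_const_mul]
    ring
  · refine Eventually.of_forall fun t => ?_
    have hm : Measurable fun x : V => x + t • pr s x := by
      have := (dil s t).continuous.measurable
      simpa only [← dil_apply] using this
    exact ((hc.comp hm).mul (hψm.comp hm)).aestronglyMeasurable
  · filter_upwards [ae_ne_zero] with x hx
    refine LipschitzOnWith.of_dist_le_mul fun t ht t' ht' => ?_
    have ht1 : |t| < 1 / 2 := by simpa using ht
    have ht1' : |t'| < 1 / 2 := by simpa using ht'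
    rw [Real.coe_nnabs, abs_of_nonneg (hb0 x), Real.dist_eq, Real.dist_eq]
    by_cases h : x ∈ closedBall (0 : V) (2 * R)
    · have h3 := mm_pos hx
      have hxn : ‖x‖ ≤ 2 * R := by simpa using h
      have a1 : |c (x + t • pr s x)| ≤ 2 * (C / mm x ^ k) := by
        have b1 := hl x hx t 0 ht1 (by norm_num)
        have b2 := hb x hx
        simp only [zero_smul, add_zero, sub_zero] at b1
        have b3 : C / mm x ^ k * |t| ≤ C / mm x ^ k := by
          refine mul_le_of_le_one_right (by positivity) (by linarith)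
        have b4 := abs_sub_abs_le_abs_sub (c (x + t • pr s x)) (c x)
        linarith
      have a2 : |ψ (x + t • pr s x) - ψ (x + t' • pr s x)| ≤ K * (|t - t'| * (2 * R)) := by
        have b1 := hK.dist_le_mul (x + t • pr s x) (x + t' • pr s x)
        rw [Real.dist_eq, dist_eq_norm, add_sub_add_left_eq_sub, ← sub_smul, norm_smul,
          Real.norm_eq_abs] at b1
        refine b1.trans ?_
        gcongr
        exact (norm_pr_le s x).trans hxn
      have a3 := hl x hx t t' ht1 ht1'
      have a4 : |ψ (x + t' • pr s x)| ≤ M := hM _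
      simp only [bound, indicator_of_mem h]
      have e : c (x + t • pr s x) * ψ (x + t • pr s x) - c (x + t' • pr s x) * ψ (x + t' • pr s x)
          = c (x + t • pr s x) * (ψ (x + t • pr s x) - ψ (x + t' • pr s x)) +
            (c (x + t • pr s x) - c (x + t' • pr s x)) * ψ (x + t' • pr s x) := by ring
      rw [e]
      refine (abs_add_le _ _).trans ?_
      rw [abs_mul, abs_mul]
      have b1 := mul_le_mul a1 a2 (abs_nonneg _) (by positivity)
      have b2 := mul_le_mul a3 a4 (abs_nonneg _) (by positivity)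
      refine (add_le_add b1 b2).trans (le_of_eq ?_)
      ring
    · have hxn : 2 * R < ‖x‖ := by simpa using h
      have b1 := norm_line_ge s x ht1
      have b2 := norm_line_ge s x ht1'
      rw [hz _ (by linarith), hz (x + t' • pr s x) (by linarith)]
      have := hb0 x
      simp only [mul_zero, sub_zero, abs_zero]
      positivity
  · filter_upwards [hd] with x hx
    have h1 : HasDerivAt (fun t : ℝ => x + t • pr s x) (pr s x) 0 := by
      simpa using ((hasDerivAt_id (0 : ℝ)).smul_const (pr s x)).const_add x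
    have h2 : HasFDerivAt ψ (fderiv ℝ ψ x) (x + (0 : ℝ) • pr s x) := by
      simpa using ((hψ.differentiable (by simp)) x).hasFDerivAt
    have h3 := hx.fun_mul (h2.comp_hasDerivAt (0 : ℝ) h1)
    exact h3.congr_deriv (by simp)

end Vale.Agent.P098C
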