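import Vale.Agent.P098C.Cone

/-! # A nonflat one-homogeneous global minimizer in seven-space -/

open MeasureTheory Set Metric Filter
open scoped ContDiff RealInnerProductSpace Topology NNReal

namespace Vale.Agent.P098C

open Vale.Agent.P098

/-- The minimizing cone. -/
noncomputable def uu (x : V) : ℝ := UU x / √5
/-- Its gradient. -/
noncomputable def gg (x : V) : V := if eta x < 2 * rho x then (√5)⁻¹ • aa x else 0

lemma s_pos : (0 : ℝ) < √5 := by positivity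
lemma s_sq : (√5 : ℝ) ^ 2 = 5 := Real.sq_sqrt (by norm_num)

lemma lip_uu : LipschitzWith 3 uu := by
  refine LipschitzWith.of_dist_le_mul fun x y => le_trans ?_ (lip_UU.dist_le_mul x y)
  have h1 : (1 : ℝ) ≤ √5 := Real.one_le_sqrt.2 (by norm_num)
  rw [Real.dist_eq, Real.dist_eq, uu, uu, ← sub_div, abs_div, abs_of_pos s_pos]
  exact div_le_self (abs_nonneg _) h1

lemma uu_nonneg (x : V) : 0 ≤ uu x := div_nonneg (UU_nonneg x) s_pos.le

lemma grad_div {x g : V} (h : HasGradientAt UU g x) : gradient uu x = (√5)⁻¹ • g := by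
  refine HasGradientAt.gradient ?_
  rw [hasGradientAt_iff_hasFDerivAt] at h ⊢
  have h1 := h.const_mul (√5)⁻¹
  have e : uu = fun y => (√5)⁻¹ * UU y := by
    funext y
    rw [uu, div_eq_inv_mul]
  rw [e]
  refine h1.congr_fderiv ?_
  simp

lemma memH1_uu (x₀ : V) (r : ℝ) : MemH1 (ball x₀ r) uu gg := by
  refine ModA.memH1_congr (ae_restrict_of_ae ?_) (ModA.memH1_of_lipschitz lip_uu x₀ r)
  filter_upwards [ae_off_cone] with x hx
  unfold gg
  split_ifs with h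
  · exact grad_div (grad_G h)
  · rw [grad_div (grad_C (lt_of_le_of_ne (not_lt.1 h) hx.symm)), smul_zero]

lemma cd (a b c d : ℝ) : ContDiff ℝ 1 (cub a b c d) := contDiff_cub a b c d

lemma memLp_aa (x₀ : V) (r : ℝ) : MemLp aa 2 (volume.restrict (ball x₀ r)) := by
  have hfin := H510.ball_fin x₀ r
  obtain ⟨C, hC⟩ := fld_bound (p := p1) (q := q1) (p' := p2) (q' := q2) (cd ..) (cd ..) (cd ..)
    (cd ..)
  exact MemLp.of_bound (measurable_fld 1 (cd ..) (cd ..) (cd ..) (cd ..)).aestronglyMeasurable C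
    (Eventually.of_forall hC)

lemma memLp_ff (x₀ : V) (r : ℝ) : MemLp ff 2 (volume.restrict (ball x₀ r)) := by
  obtain ⟨C, hC0, hC⟩ := dv_bound 1 (p := p1) (q := q1) (p' := p2) (q' := q2) (cd ..) (cd ..)
    (cd ..) (cd ..)
  have hm : Measurable ff := measurable_dv 1 (cd ..) (cd ..) (cd ..) (cd ..)
  rw [memLp_two_iff_integrable_sq hm.aestronglyMeasurable]
  have hi : IntegrableOn (fun x : V => C ^ 2 * (1 / mm x ^ 2)) (ball x₀ r) volume :=
    ((intOn_mm (k := 2) (by norm_num) x₀ r).mono_set ball_subset_closedBall).const_mul _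
  refine Integrable.mono' hi (hm.pow_const 2).aestronglyMeasurable
    (Eventually.of_forall fun x => ?_)
  rw [Real.norm_of_nonneg (sq_nonneg _), ← sq_abs]
  calc |ff x| ^ 2 ≤ (C / mm x ^ 1) ^ 2 := pow_le_pow_left₀ (abs_nonneg _) (hC x) 2
    _ = _ := by rw [div_pow]; ring

lemma inner_grad (φ : V → ℝ) (x e : V) : ⟪e, gradient φ x⟫ = fderiv ℝ φ x e := by
  rw [real_inner_comm, gradient, InnerProductSpace.toDual_symm_apply]

lemma out_zero {φ : V → ℝ} {B : Set V} (hs : tsupport φ ⊆ B) {x : V} (hx : x ∉ B) :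
    φ x = 0 ∧ gradient φ x = 0 := by
  have h : x ∉ tsupport φ := fun h => hx (hs h)
  refine ⟨image_eq_zero_of_notMem_tsupport h, ?_⟩
  have h2 : fderiv ℝ φ x = 0 :=
    image_eq_zero_of_notMem_tsupport fun h' => h (tsupport_fderiv_subset ℝ h')
  simp [gradient, h2]

lemma ibp_aa {x₀ : V} {r : ℝ} (φ : V → ℝ) (hφ : ContDiff ℝ ∞ φ) (hc : HasCompactSupport φ)
    (hs : tsupport φ ⊆ ball x₀ r) :
    ∫ x in ball x₀ r, (⟪(√5)⁻¹ • aa x, gradient φ x⟫ + (√5)⁻¹ * ff x * φ x) = 0 := by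
  have h := (ibp_fld (k := 1) (by norm_num) (p := p1) (q := q1) (p' := p2) (q' := q2) (cd ..)
    (cd ..) (cd ..) (cd ..) (hφ.of_le (by simp)) hc).2
  rw [setIntegral_eq_integral_of_forall_compl_eq_zero]
  · have e : (fun x => ⟪(√5)⁻¹ • aa x, gradient φ x⟫ + (√5)⁻¹ * ff x * φ x) = fun x =>
        (√5)⁻¹ * (fderiv ℝ φ x (fld 1 p1 q1 p2 q2 x) + dv 1 p1 q1 p2 q2 x * φ x) := by
      funext x
      rw [real_inner_smul_left, inner_grad, aa, ff]
      ring
    rw [e, integral_const_mul, h, mul_zero]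
  · intro x hx
    obtain ⟨h1, h2⟩ := out_zero hs hx
    simp [h1, h2]

lemma ibp_ZZ {x₀ : V} {r : ℝ} (φ : V → ℝ) (hφ : ContDiff ℝ ∞ φ) (hc : HasCompactSupport φ)
    (hs : tsupport φ ⊆ ball x₀ r) :
    Integrable (fun x => 2 * φ x * ⟪ZZ x, gradient φ x⟫ + dZ x * φ x ^ 2)
      (volume.restrict (ball x₀ r)) ∧
    ∫ x in ball x₀ r, (2 * φ x * ⟪ZZ x, gradient φ x⟫ + dZ x * φ x ^ 2) = 0 := by
  have hφ1 : ContDiff ℝ 1 φ := hφ.of_le (by simp)
  have hc2 : HasCompactSupport fun x => φ x ^ 2 := hc.comp_left (g := fun t : ℝ => t ^ 2) (by simp)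
  obtain ⟨i, h⟩ := ibp_fld (k := 2) (by norm_num) (p := p3) (q := q3) (p' := p4) (q' := q4) (cd ..)
    (cd ..) (cd ..) (cd ..) (hφ1.pow 2) hc2
  have e : (fun x => 2 * φ x * ⟪ZZ x, gradient φ x⟫ + dZ x * φ x ^ 2) = fun x =>
      fderiv ℝ (fun y => φ y ^ 2) x (fld 2 p3 q3 p4 q4 x) + dv 2 p3 q3 p4 q4 x * φ x ^ 2 := by
    funext x
    have h1 : fderiv ℝ (fun y => φ y ^ 2) x = _ :=
      (((hφ1.differentiable (by simp)) x).hasFDerivAt.pow 2).fderiv
    rw [h1, inner_grad, ZZ, dZ]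
    simp
  refine ⟨by rw [e]; exact i.integrableOn, ?_⟩
  rw [setIntegral_eq_integral_of_forall_compl_eq_zero]
  · rw [e, h]
  · intro x hx
    obtain ⟨h1, h2⟩ := out_zero hs hx
    simp [h1]

lemma ptC {a Z q : V} {f D v : ℝ} (h1 : ‖a‖ ^ 2 ≤ 1) (h2 : ‖Z‖ ^ 2 + D ≤ 0)
    (h3 : ⟪a, Z⟫ + f ≤ 0) (hv : 0 ≤ v) :
    2 * (⟪a, q⟫ + f * v) + (2 * v * ⟪Z, q⟫ + D * v ^ 2) ≤ ‖q‖ ^ 2 + 1 := by
  have e : ‖q - (a + v • Z)‖ ^ 2 = ‖q‖ ^ 2 - 2 * (⟪a, q⟫ + v * ⟪Z, q⟫) +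
      (‖a‖ ^ 2 + 2 * (v * ⟪a, Z⟫) + v ^ 2 * ‖Z‖ ^ 2) := by
    rw [norm_sub_sq_real, norm_add_sq_real, real_inner_comm, inner_add_left, real_inner_smul_left,
      real_inner_smul_right, norm_smul, mul_pow, Real.norm_eq_abs, sq_abs]
  nlinarith [sq_nonneg ‖q - (a + v • Z)‖, mul_nonneg hv (neg_nonneg.2 h3),
    mul_nonneg (sq_nonneg v) (neg_nonneg.2 h2)]

/-- The pointwise calibration inequality. -/
lemma pointwise {x : V} (hx : x ≠ 0) {v : V → ℝ} {q : V} (hv : 0 ≤ v x) (hz : v x = 0 → q = 0) :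
    2 * (⟪(√5)⁻¹ • aa x, q - gg x⟫ + (√5)⁻¹ * ff x * (v x - uu x)) +
      (2 * (v x - uu x) * ⟪ZZ x, q - gg x⟫ + dZ x * (v x - uu x) ^ 2) ≤
    (‖q‖ ^ 2 + {y | 0 < v y}.indicator (fun _ => (1 : ℝ)) x) -
      (‖gg x‖ ^ 2 + {y | 0 < uu y}.indicator (fun _ => (1 : ℝ)) x) := by
  have hs := s_pos
  by_cases h : eta x < 2 * rho x
  · have hg : gg x = (√5)⁻¹ • aa x := if_pos h
    have m1 : x ∈ {y | 0 < uu y} := div_pos (UU_pos_G h) hs
    rw [indicator_of_mem m1, ff_G h, ← hg]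
    rcases hv.eq_or_lt with h0 | h0
    · have m2 : x ∉ {y | 0 < v y} := by simp [← h0]
      have hz' := zero_G h
      rw [indicator_of_notMem m2, hz h0.symm, ← h0, hg, uu]
      simp only [zero_sub, inner_neg_right, real_inner_self_eq_norm_sq, real_inner_smul_right,
        norm_smul, mul_pow, Real.norm_eq_abs, sq_abs, inv_pow, s_sq, norm_zero, neg_sq, div_pow]
      have e : 2 * -(UU x / √5) * -((√5)⁻¹ * ⟪ZZ x, aa x⟫) = 2 * UU x * ⟪ZZ x, aa x⟫ / 5 := by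
        have e5 : (√5)⁻¹ * (√5 : ℝ)⁻¹ = 1 / 5 := by rw [← mul_inv, ← sq, s_sq, one_div]
        linear_combination (2 * UU x * ⟪ZZ x, aa x⟫) * e5
      rw [e]
      linarith
    · have m2 : x ∈ {y | 0 < v y} := h0
      rw [indicator_of_mem m2]
      have h1 := quad_nonneg (h := q - gg x) (w := v x - uu x) (neg_G h)
      have h2 : ‖q‖ ^ 2 = ‖gg x‖ ^ 2 + 2 * ⟪gg x, q - gg x⟫ + ‖q - gg x‖ ^ 2 := by
        rw [← norm_add_sq_real, add_sub_cancel]
      linarith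
  · have hg : gg x = 0 := if_neg h
    have hu : uu x = 0 := by rw [uu, UU_C h, zero_div]
    have m1 : x ∉ {y | 0 < uu y} := by simp [hu]
    rw [indicator_of_notMem m1, hg, hu]
    simp only [sub_zero, norm_zero, add_zero, ne_eq, OfNat.ofNat_ne_zero, not_false_eq_true,
      zero_pow]
    rcases hv.eq_or_lt with h0 | h0
    · have m2 : x ∉ {y | 0 < v y} := by simp [← h0]
      rw [indicator_of_notMem m2, hz h0.symm, ← h0]
      simp
    · have m2 : x ∈ {y | 0 < v y} := h0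
      rw [indicator_of_mem m2]
      refine ptC ?_ (neg_C h hx) ?_ hv
      · have := aa_C h hx
        rw [norm_smul, mul_pow, Real.norm_eq_abs, sq_abs, inv_pow, s_sq]
        linarith
      · rw [real_inner_smul_left, ← mul_add]
        exact mul_nonpos_of_nonneg_of_nonpos (by positivity) (mix_C h hx)

/-- **The cone is a global minimizer.** -/
theorem uu_min : IsGlobalMinimizer uu := by
  refine ⟨uu_nonneg, gg, fun x₀ r _ => ⟨memH1_uu x₀ r, fun v gv hv0 hv hd => ?_⟩⟩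
  have hu := memH1_uu x₀ r
  have iv := (rS4_sq hv.2.1).add (rS4_ind hv.1)
  have iu := (rS4_sq hu.2.1).add (rS4_ind hu.1)
  have key := calib (a := fun x => (√5)⁻¹ • aa x) (Z := ZZ) (f := fun x => (√5)⁻¹ * ff x)
    (dZ := dZ) ((memLp_aa x₀ r).const_smul (√5 : ℝ)⁻¹) ((memLp_ff x₀ r).const_mul _)
    (ae_restrict_of_ae (ae_ne_zero.mono fun x hx => neg_all hx)) ibp_aa ibp_ZZ hd (iv.sub iu) ?_
  · rw [integral_sub' iv iu] at key
    exact sub_nonneg.1 key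
  · filter_upwards [H510.grad_zero hv0 hv, ae_restrict_of_ae ae_ne_zero] with x h1 h2
    exact pointwise h2 (hv0 x) h1

lemma uu_smul (c : ℝ) (x : V) : uu (c • x) = |c| * uu x := by
  unfold uu UU
  rw [mm_smul, eta_smul]
  by_cases hc : c = 0
  · simp [hc]
  · have : |c| ≠ 0 := abs_ne_zero.2 hc
    by_cases h0 : mm x = 0
    · simp [h0]
    · field_simp

theorem uu_hom : IsOneHomogeneous uu := fun r hr =>
  Eventually.of_forall fun x => by rw [uu_smul, abs_of_pos hr]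

lemma uu_pos : ∃ x : V, 0 < uu x := by
  refine ⟨pr sP (EuclideanSpace.single 0 1), div_pos (UU_pos_G ?_) s_pos⟩
  have h1 : eta (pr sP (EuclideanSpace.single 0 1)) = 0 := by simp [eta, Q_P]
  have h2 : pr sP (pr sP (EuclideanSpace.single (0 : Fin 7) (1 : ℝ))) ≠ 0 := by
    intro h
    have h3 := congrArg (fun y : V => y 0) h
    simp [pr_apply, sP] at h3
  have h3 : 0 < rho (pr sP (EuclideanSpace.single 0 1)) := norm_pos_iff.2 h2
  linarith

theorem uu_ne_zero : ¬ uu =ᵐ[volume] fun _ => 0 := by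
  intro h
  have e := (Continuous.ae_eq_iff_eq volume lip_uu.continuous continuous_const).1 h
  obtain ⟨x, hx⟩ := uu_pos
  rw [e] at hx
  exact lt_irrefl _ hx

theorem uu_not_flat : ¬ ∃ e : V, ‖e‖ = 1 ∧ uu =ᵐ[volume] fun x => max ⟪x, e⟫ 0 := by
  rintro ⟨e, -, h⟩
  have hc : Continuous fun x : V => max ⟪x, e⟫ 0 := by fun_prop
  have e1 := (Continuous.ae_eq_iff_eq volume lip_uu.continuous hc).1 h
  obtain ⟨x, hx⟩ := uu_pos
  have hx' : 0 < uu ((-1 : ℝ) • x) := by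
    rw [uu_smul]
    simpa using hx
  rw [e1] at hx hx'
  simp only [lt_max_iff, lt_irrefl, or_false, real_inner_smul_left] at hx hx'
  linarith

lemma rho_eq (x : V) : rho x = √(x 0 ^ 2 + x 1 ^ 2 + x 2 ^ 2) := by
  rw [rho, EuclideanSpace.norm_eq]
  simp [Fin.sum_univ_seven, pr_apply, sP]

lemma eta_sq (x : V) : eta x ^ 2 = x 3 ^ 2 + x 4 ^ 2 + x 5 ^ 2 + x 6 ^ 2 := by
  rw [eta, EuclideanSpace.norm_sq_eq]
  simp [Fin.sum_univ_seven, pr_apply, sQ]

lemma uu_eq : uu = fun x : V => max (√(x 0 ^ 2 + x 1 ^ 2 + x 2 ^ 2) -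
    (x 3 ^ 2 + x 4 ^ 2 + x 5 ^ 2 + x 6 ^ 2) / (4 * √(x 0 ^ 2 + x 1 ^ 2 + x 2 ^ 2))) 0 / √5 := by
  funext x
  rw [uu, ← rho_eq, ← eta_sq]
  congr 1
  have h1 := eta_nonneg x
  by_cases h : eta x < 2 * rho x
  · have hr : 0 < rho x := by linarith
    have e : UU x = rho x - eta x ^ 2 / (4 * rho x) := by
      rw [UU, mm_G h]
      field_simp
      ring
    rw [← e, max_eq_left (UU_nonneg x)]
  · rw [UU_C h, max_eq_right]
    rcases (rho_nonneg x).eq_or_lt with h0 | h0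
    · simp [← h0]
    · rw [sub_nonpos, le_div_iff₀ (by positivity)]
      nlinarith [not_lt.1 h]

end Vale.Agent.P098C
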