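import Vale.Agent.P098C.Coef

/-! # The explicit coefficients and five polynomial inequalities -/

open Set

namespace Vale.Agent.P098C

/-- A cubic polynomial. -/
def cub (a b c d t : ℝ) : ℝ := a + b * t + c * t ^ 2 + d * t ^ 3

lemma contDiff_cub (a b c d : ℝ) : ContDiff ℝ 1 (cub a b c d) := by
  unfold cub
  fun_prop

lemma deriv_cub (a b c d t : ℝ) : deriv (cub a b c d) t = b + 2 * c * t + 3 * d * t ^ 2 := by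
  have h0 := hasDerivAt_id' t
  have h := ((((hasDerivAt_const t a).fun_add (h0.const_mul b)).fun_add
    ((h0.fun_pow 2).const_mul c)).fun_add ((h0.fun_pow 3).const_mul d))
  refine (h.congr_deriv ?_).deriv
  simp
  ring

/-- An explicit coefficient. -/
noncomputable def p1 : ℝ → ℝ := cub (2 : ℝ) (0 : ℝ) (2 : ℝ) (0 : ℝ)
/-- An explicit coefficient. -/
noncomputable def q1 : ℝ → ℝ := cub (-(34 / 25) : ℝ) (443 / 50 : ℝ) (-(609 / 50) : ℝ) (117 / 25 : ℝ)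
/-- An explicit coefficient. -/
noncomputable def p2 : ℝ → ℝ := cub (-1 : ℝ) (0 : ℝ) (0 : ℝ) (0 : ℝ)
/-- An explicit coefficient. -/
noncomputable def q2 : ℝ → ℝ := cub (-(61 / 50) : ℝ) (4 / 25 : ℝ) (53 / 50 : ℝ) (0 : ℝ)
/-- An explicit coefficient. -/
noncomputable def p3 : ℝ → ℝ := cub (-(493 / 50) : ℝ) (4 : ℝ) (0 : ℝ) (0 : ℝ)
/-- An explicit coefficient. -/
noncomputable def q3 : ℝ → ℝ := cub (209 / 50 : ℝ) (-(1173 / 50) : ℝ) (1661 / 50 : ℝ) (-(697 / 50) : ℝ)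
/-- An explicit coefficient. -/
noncomputable def p4 : ℝ → ℝ := cub (-(37 / 10) : ℝ) (157 / 50 : ℝ) (0 : ℝ) (0 : ℝ)
/-- An explicit coefficient. -/
noncomputable def q4 : ℝ → ℝ := cub (2 : ℝ) (309 / 25 : ℝ) (-(1107 / 50) : ℝ) (389 / 50 : ℝ)

/-- The rescaled divergence inside the cone. -/
noncomputable def DG' (k : ℕ) (p q p' q' : ℝ → ℝ) (t : ℝ) : ℝ :=
  3 * (p t + q 1) + (-(t * deriv p t) - k * (p t + q 1)) + (4 * (p' t + q' 1) + t * deriv p' t)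

/-- The rescaled divergence of the second field inside the cone. -/
noncomputable def DG (t : ℝ) : ℝ := DG' 2 p3 q3 p4 q4 t

/-- The rescaled divergence outside the cone. -/
noncomputable def DC (k : ℕ) (p q p' q' : ℝ → ℝ) (t : ℝ) : ℝ :=
  3 * (p 1 + q t) + t * deriv q t + (4 * (p' 1 + q' t) + (-(t * deriv q' t) - k * (q' t + p' 1)))

lemma DG1 (t : ℝ) : DG' 1 p1 q1 p2 q2 t = 0 := by
  simp only [DG', p1, q1, p2, q2, deriv_cub, cub]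
  push_cast
  ring

/-- A polynomial expression. -/
noncomputable def eG1 (t : ℝ) : ℝ :=
  -((p3 t + q3 1) ^ 2 / 4 + t ^ 2 * (p4 t + q4 1) ^ 2 + DG t)

lemma G1_0 (t : ℝ) (h1 : 0 ≤ t - (0 : ℝ)) (h2 : 0 ≤ (33 / 40 : ℝ) - t) : 0 ≤ eG1 t := by
  have e : eG1 t =
      (909056 / 1185921 : ℝ) * (t - (0 : ℝ)) ^ 0 * ((33 / 40 : ℝ) - t) ^ 4 +
      (12126464 / 1185921 : ℝ) * (t - (0 : ℝ)) ^ 1 * ((33 / 40 : ℝ) - t) ^ 3 +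
      (34000 / 395307 : ℝ) * (t - (0 : ℝ)) ^ 2 * ((33 / 40 : ℝ) - t) ^ 2 +
      (21552932 / 29648025 : ℝ) * (t - (0 : ℝ)) ^ 3 * ((33 / 40 : ℝ) - t) ^ 1 +
      (712046471 / 2964802500 : ℝ) * (t - (0 : ℝ)) ^ 4 * ((33 / 40 : ℝ) - t) ^ 0 := by
    simp only [eG1, DG, DG', p3, q3, p4, q4, deriv_cub, cub]
    push_cast
    ring
  rw [e]
  positivity

lemma G1_1 (t : ℝ) (h1 : 0 ≤ t - (33 / 40 : ℝ)) (h2 : 0 ≤ (1 : ℝ) - t) : 0 ≤ eG1 t := by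
  have e : eG1 t =
      (712046471 / 6002500 : ℝ) * (t - (33 / 40 : ℝ)) ^ 0 * ((1 : ℝ) - t) ^ 4 +
      (149758156 / 300125 : ℝ) * (t - (33 / 40 : ℝ)) ^ 1 * ((1 : ℝ) - t) ^ 3 +
      (46259824 / 60025 : ℝ) * (t - (33 / 40 : ℝ)) ^ 2 * ((1 : ℝ) - t) ^ 2 +
      (5591296 / 12005 : ℝ) * (t - (33 / 40 : ℝ)) ^ 3 * ((1 : ℝ) - t) ^ 1 +
      (157440 / 2401 : ℝ) * (t - (33 / 40 : ℝ)) ^ 4 * ((1 : ℝ) - t) ^ 0 := by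
    simp only [eG1, DG, DG', p3, q3, p4, q4, deriv_cub, cub]
    push_cast
    ring
  rw [e]
  positivity

lemma G1 {t : ℝ} (h : t ∈ Icc (0 : ℝ) 1) : 0 ≤ eG1 t := by
  obtain ⟨h0, h1⟩ := h
  by_cases a0 : t ≤ (33 / 40 : ℝ)
  · exact G1_0 t (by linarith) (by linarith)
  exact G1_1 t (by linarith) (by linarith)

/-- A polynomial expression. -/
noncomputable def eG2 (t : ℝ) : ℝ :=
  -(t ^ 2 + 4) - (1 + t ^ 2) * (p3 t + q3 1) / 2 + t ^ 2 * (p4 t + q4 1) -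
    (1 - t ^ 2) / 4 * DG t

lemma G2_0 (t : ℝ) (h1 : 0 ≤ t - (0 : ℝ)) (h2 : 0 ≤ (1 : ℝ) - t) : 0 ≤ eG2 t := by
  have e : eG2 t =
      (1419 / 200 : ℝ) * (t - (0 : ℝ)) ^ 0 * ((1 : ℝ) - t) ^ 3 +
      (384 / 25 : ℝ) * (t - (0 : ℝ)) ^ 1 * ((1 : ℝ) - t) ^ 2 +
      (7 / 2 : ℝ) * (t - (0 : ℝ)) ^ 2 * ((1 : ℝ) - t) ^ 1 +
      (3 / 10 : ℝ) * (t - (0 : ℝ)) ^ 3 * ((1 : ℝ) - t) ^ 0 := by
    simp only [eG2, DG, DG', p3, q3, p4, q4, deriv_cub, cub]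
    push_cast
    ring
  rw [e]
  positivity

lemma G2 {t : ℝ} (h : t ∈ Icc (0 : ℝ) 1) : 0 ≤ eG2 t := by
  obtain ⟨h0, h1⟩ := h
  exact G2_0 t (by linarith) (by linarith)

/-- A polynomial expression. -/
noncomputable def eC1 (t : ℝ) : ℝ :=
  5 - t ^ 2 * (p1 1 + q1 t) ^ 2 / 4 - (p2 1 + q2 t) ^ 2

lemma C1_0 (t : ℝ) (h1 : 0 ≤ t - (0 : ℝ)) (h2 : 0 ≤ (4 / 5 : ℝ) - t) : 0 ≤ eC1 t := by
  have e : eC1 t =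
      (111875 / 262144 : ℝ) * (t - (0 : ℝ)) ^ 0 * ((4 / 5 : ℝ) - t) ^ 8 +
      (222875 / 32768 : ℝ) * (t - (0 : ℝ)) ^ 1 * ((4 / 5 : ℝ) - t) ^ 7 +
      (3071725 / 65536 : ℝ) * (t - (0 : ℝ)) ^ 2 * ((4 / 5 : ℝ) - t) ^ 6 +
      (4114485 / 32768 : ℝ) * (t - (0 : ℝ)) ^ 3 * ((4 / 5 : ℝ) - t) ^ 5 +
      (15930137 / 131072 : ℝ) * (t - (0 : ℝ)) ^ 4 * ((4 / 5 : ℝ) - t) ^ 4 +
      (7714721 / 163840 : ℝ) * (t - (0 : ℝ)) ^ 5 * ((4 / 5 : ℝ) - t) ^ 3 +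
      (337885 / 65536 : ℝ) * (t - (0 : ℝ)) ^ 6 * ((4 / 5 : ℝ) - t) ^ 2 +
      (137319 / 4096000 : ℝ) * (t - (0 : ℝ)) ^ 7 * ((4 / 5 : ℝ) - t) ^ 1 +
      (3273331 / 163840000 : ℝ) * (t - (0 : ℝ)) ^ 8 * ((4 / 5 : ℝ) - t) ^ 0 := by
    simp only [eC1, p1, q1, p2, q2, cub]
    ring
  rw [e]
  positivity

lemma C1_1 (t : ℝ) (h1 : 0 ≤ t - (4 / 5 : ℝ)) (h2 : 0 ≤ (1 : ℝ) - t) : 0 ≤ eC1 t := by
  have e : eC1 t =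
      (3273331 / 2500 : ℝ) * (t - (4 / 5 : ℝ)) ^ 0 * ((1 : ℝ) - t) ^ 8 +
      (1568006 / 125 : ℝ) * (t - (4 / 5 : ℝ)) ^ 1 * ((1 : ℝ) - t) ^ 7 +
      (3679747 / 50 : ℝ) * (t - (4 / 5 : ℝ)) ^ 2 * ((1 : ℝ) - t) ^ 6 +
      (2353517 / 10 : ℝ) * (t - (4 / 5 : ℝ)) ^ 3 * ((1 : ℝ) - t) ^ 5 +
      (6574731 / 16 : ℝ) * (t - (4 / 5 : ℝ)) ^ 4 * ((1 : ℝ) - t) ^ 4 +
      (3167065 / 8 : ℝ) * (t - (4 / 5 : ℝ)) ^ 5 * ((1 : ℝ) - t) ^ 3 +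
      (3177175 / 16 : ℝ) * (t - (4 / 5 : ℝ)) ^ 6 * ((1 : ℝ) - t) ^ 2 +
      (40625 : ℝ) * (t - (4 / 5 : ℝ)) ^ 7 * ((1 : ℝ) - t) ^ 1 := by
    simp only [eC1, p1, q1, p2, q2, cub]
    ring
  rw [e]
  positivity

lemma C1 {t : ℝ} (h : t ∈ Icc (0 : ℝ) 1) : 0 ≤ eC1 t := by
  obtain ⟨h0, h1⟩ := h
  by_cases a0 : t ≤ (4 / 5 : ℝ)
  · exact C1_0 t (by linarith) (by linarith)
  exact C1_1 t (by linarith) (by linarith)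

/-- A polynomial expression. -/
noncomputable def eC2 (t : ℝ) : ℝ :=
  -(t ^ 2 * (p3 1 + q3 t) ^ 2 / 4 + (p4 1 + q4 t) ^ 2 + DC 2 p3 q3 p4 q4 t)

lemma C2_0 (t : ℝ) (h1 : 0 ≤ t - (0 : ℝ)) (h2 : 0 ≤ (7 / 8 : ℝ) - t) : 0 ≤ eC2 t := by
  have e : eC2 t =
      (905969664 / 3603000625 : ℝ) * (t - (0 : ℝ)) ^ 0 * ((7 / 8 : ℝ) - t) ^ 8 +
      (85645590528 / 720600125 : ℝ) * (t - (0 : ℝ)) ^ 1 * ((7 / 8 : ℝ) - t) ^ 7 +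
      (131218407424 / 514714375 : ℝ) * (t - (0 : ℝ)) ^ 2 * ((7 / 8 : ℝ) - t) ^ 6 +
      (108582404096 / 514714375 : ℝ) * (t - (0 : ℝ)) ^ 3 * ((7 / 8 : ℝ) - t) ^ 5 +
      (11110395136 / 514714375 : ℝ) * (t - (0 : ℝ)) ^ 4 * ((7 / 8 : ℝ) - t) ^ 4 +
      (4173688384 / 514714375 : ℝ) * (t - (0 : ℝ)) ^ 5 * ((7 / 8 : ℝ) - t) ^ 3 +
      (8369158524 / 514714375 : ℝ) * (t - (0 : ℝ)) ^ 6 * ((7 / 8 : ℝ) - t) ^ 2 +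
      (14482615691 / 3603000625 : ℝ) * (t - (0 : ℝ)) ^ 7 * ((7 / 8 : ℝ) - t) ^ 1 +
      (3758417203 / 11529602000 : ℝ) * (t - (0 : ℝ)) ^ 8 * ((7 / 8 : ℝ) - t) ^ 0 := by
    simp only [eC2, DC, p3, q3, p4, q4, deriv_cub, cub]
    push_cast
    ring
  rw [e]
  positivity

lemma C2_1 (t : ℝ) (h1 : 0 ≤ t - (7 / 8 : ℝ)) (h2 : 0 ≤ (1 : ℝ) - t) : 0 ≤ eC2 t := by
  have e : eC2 t =
      (3758417203 / 2000 : ℝ) * (t - (7 / 8 : ℝ)) ^ 0 * ((1 : ℝ) - t) ^ 8 +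
      (8669389767 / 625 : ℝ) * (t - (7 / 8 : ℝ)) ^ 1 * ((1 : ℝ) - t) ^ 7 +
      (27597372748 / 625 : ℝ) * (t - (7 / 8 : ℝ)) ^ 2 * ((1 : ℝ) - t) ^ 6 +
      (49544035264 / 625 : ℝ) * (t - (7 / 8 : ℝ)) ^ 3 * ((1 : ℝ) - t) ^ 5 +
      (55133524992 / 625 : ℝ) * (t - (7 / 8 : ℝ)) ^ 4 * ((1 : ℝ) - t) ^ 4 +
      (39384231936 / 625 : ℝ) * (t - (7 / 8 : ℝ)) ^ 5 * ((1 : ℝ) - t) ^ 3 +
      (719896576 / 25 : ℝ) * (t - (7 / 8 : ℝ)) ^ 6 * ((1 : ℝ) - t) ^ 2 +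
      (4950065152 / 625 : ℝ) * (t - (7 / 8 : ℝ)) ^ 7 * ((1 : ℝ) - t) ^ 1 +
      (128974848 / 125 : ℝ) * (t - (7 / 8 : ℝ)) ^ 8 * ((1 : ℝ) - t) ^ 0 := by
    simp only [eC2, DC, p3, q3, p4, q4, deriv_cub, cub]
    push_cast
    ring
  rw [e]
  positivity

lemma C2 {t : ℝ} (h : t ∈ Icc (0 : ℝ) 1) : 0 ≤ eC2 t := by
  obtain ⟨h0, h1⟩ := h
  by_cases a0 : t ≤ (7 / 8 : ℝ)
  · exact C2_0 t (by linarith) (by linarith)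
  exact C2_1 t (by linarith) (by linarith)

/-- A polynomial expression. -/
noncomputable def eC3 (t : ℝ) : ℝ :=
  -(t ^ 2 * ((p1 1 + q1 t) * (p3 1 + q3 t)) / 4 + (p2 1 + q2 t) * (p4 1 + q4 t) +
    DC 1 p1 q1 p2 q2 t)

lemma C3_0 (t : ℝ) (h1 : 0 ≤ t - (0 : ℝ)) (h2 : 0 ≤ (11 / 20 : ℝ) - t) : 0 ≤ eC3 t := by
  have e : eC3 t =
      (49582080000 / 214358881 : ℝ) * (t - (0 : ℝ)) ^ 0 * ((11 / 20 : ℝ) - t) ^ 8 +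
      (276255744000 / 214358881 : ℝ) * (t - (0 : ℝ)) ^ 1 * ((11 / 20 : ℝ) - t) ^ 7 +
      (609720704000 / 214358881 : ℝ) * (t - (0 : ℝ)) ^ 2 * ((11 / 20 : ℝ) - t) ^ 6 +
      (628597482240 / 214358881 : ℝ) * (t - (0 : ℝ)) ^ 3 * ((11 / 20 : ℝ) - t) ^ 5 +
      (305826264752 / 214358881 : ℝ) * (t - (0 : ℝ)) ^ 4 * ((11 / 20 : ℝ) - t) ^ 4 +
      (281542629488 / 1071794405 : ℝ) * (t - (0 : ℝ)) ^ 5 * ((11 / 20 : ℝ) - t) ^ 3 +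
      (5404915442 / 5358972025 : ℝ) * (t - (0 : ℝ)) ^ 6 * ((11 / 20 : ℝ) - t) ^ 2 +
      (661625038143 / 107179440500 : ℝ) * (t - (0 : ℝ)) ^ 7 * ((11 / 20 : ℝ) - t) ^ 1 +
      (3179536607699 / 1071794405000 : ℝ) * (t - (0 : ℝ)) ^ 8 * ((11 / 20 : ℝ) - t) ^ 0 := by
    simp only [eC3, DC, p1, q1, p2, q2, p3, q3, p4, q4, deriv_cub, cub]
    push_cast
    ring
  rw [e]
  positivity

lemma C3_1 (t : ℝ) (h1 : 0 ≤ t - (11 / 20 : ℝ)) (h2 : 0 ≤ (39 / 40 : ℝ) - t) : 0 ≤ eC3 t := by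
  have e : eC3 t =
      (101745171446368 / 4359848400625 : ℝ) * (t - (11 / 20 : ℝ)) ^ 0 * ((39 / 40 : ℝ) - t) ^ 8 +
      (1279329694716768 / 4359848400625 : ℝ) * (t - (11 / 20 : ℝ)) ^ 1 * ((39 / 40 : ℝ) - t) ^ 7 +
      (6943239083703536 / 4359848400625 : ℝ) * (t - (11 / 20 : ℝ)) ^ 2 * ((39 / 40 : ℝ) - t) ^ 6 +
      (17007566368425784 / 4359848400625 : ℝ) * (t - (11 / 20 : ℝ)) ^ 3 * ((39 / 40 : ℝ) - t) ^ 5 +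
      (4002241417440712 / 871969680125 : ℝ) * (t - (11 / 20 : ℝ)) ^ 4 * ((39 / 40 : ℝ) - t) ^ 4 +
      (10867886214145506 / 4359848400625 : ℝ) * (t - (11 / 20 : ℝ)) ^ 5 * ((39 / 40 : ℝ) - t) ^ 3 +
      (2107931294306441 / 4359848400625 : ℝ) * (t - (11 / 20 : ℝ)) ^ 6 * ((39 / 40 : ℝ) - t) ^ 2 +
      (78607794160269 / 8719696801250 : ℝ) * (t - (11 / 20 : ℝ)) ^ 7 * ((39 / 40 : ℝ) - t) ^ 1 +
      (808574345222409 / 34878787205000 : ℝ) * (t - (11 / 20 : ℝ)) ^ 8 * ((39 / 40 : ℝ) - t) ^ 0 := by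
    simp only [eC3, DC, p1, q1, p2, q2, p3, q3, p4, q4, deriv_cub, cub]
    push_cast
    ring
  rw [e]
  positivity

lemma C3_2 (t : ℝ) (h1 : 0 ≤ t - (39 / 40 : ℝ)) (h2 : 0 ≤ (1 : ℝ) - t) : 0 ≤ eC3 t := by
  have e : eC3 t =
      (808574345222409 / 5000 : ℝ) * (t - (39 / 40 : ℝ)) ^ 0 * ((1 : ℝ) - t) ^ 8 +
      (341530219221723 / 250 : ℝ) * (t - (39 / 40 : ℝ)) ^ 1 * ((1 : ℝ) - t) ^ 7 +
      (126516117334868 / 25 : ℝ) * (t - (39 / 40 : ℝ)) ^ 2 * ((1 : ℝ) - t) ^ 6 +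
      (10733516481888 : ℝ) * (t - (39 / 40 : ℝ)) ^ 3 * ((1 : ℝ) - t) ^ 5 +
      (14252159148032 : ℝ) * (t - (39 / 40 : ℝ)) ^ 4 * ((1 : ℝ) - t) ^ 4 +
      (12128168519680 : ℝ) * (t - (39 / 40 : ℝ)) ^ 5 * ((1 : ℝ) - t) ^ 3 +
      (6457567232000 : ℝ) * (t - (39 / 40 : ℝ)) ^ 6 * ((1 : ℝ) - t) ^ 2 +
      (1966424064000 : ℝ) * (t - (39 / 40 : ℝ)) ^ 7 * ((1 : ℝ) - t) ^ 1 +
      (262144000000 : ℝ) * (t - (39 / 40 : ℝ)) ^ 8 * ((1 : ℝ) - t) ^ 0 := by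
    simp only [eC3, DC, p1, q1, p2, q2, p3, q3, p4, q4, deriv_cub, cub]
    push_cast
    ring
  rw [e]
  positivity

lemma C3 {t : ℝ} (h : t ∈ Icc (0 : ℝ) 1) : 0 ≤ eC3 t := by
  obtain ⟨h0, h1⟩ := h
  by_cases a0 : t ≤ (11 / 20 : ℝ)
  · exact C3_0 t (by linarith) (by linarith)
  by_cases a1 : t ≤ (39 / 40 : ℝ)
  · exact C3_1 t (by linarith) (by linarith)
  exact C3_2 t (by linarith) (by linarith)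

end Vale.Agent.P098C
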